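import Crest.Agent.R268.Crit

/-! Commuting locally nilpotent derivations with kernel `ℂ[F]` (statement S0410). -/

set_option autoImplicit false

namespace Crest.Agent.R268

section ext
variable {P B : Type*} [CommRing P] [Algebra ℂ P] [CommRing B] [Algebra ℂ B]

/-- Extending a derivation along an injective map which becomes bijective after inverting an
invariant element. -/
theorem extend_der [IsDomain B] [Algebra.FiniteType ℂ B] (π : P →ₐ[ℂ] B)
    (hπ : Function.Injective π) (x₀ : P) (hx : π x₀ ≠ 0) (h1 : ∀ b, b ∈ locAlg π x₀)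
    (d : Der P) (hd : d x₀ = 0) :
    ∃ (M : ℕ) (D : Der B), ∀ w, D (π w) = π x₀ ^ M * π (d w) := by
  classical
  set x := π x₀ with hxdef
  have hdn : ∀ n, d (x₀ ^ n) = 0 := fun n => by simp [Derivation.leibniz_pow, hd]
  obtain ⟨s, hs⟩ := (inferInstance : Algebra.FiniteType ℂ B).out
  choose n pn hn using h1
  let M := s.sup n
  let Rel : B → B → Prop := fun b b' => ∃ N w, x ^ N * b = π w ∧ x ^ N * b' = x ^ M * π (d w)
  have huniq : ∀ b b' b'', Rel b b' → Rel b b'' → b' = b'' := by
    rintro b b' b'' ⟨N, w, h1, h2⟩ ⟨N', w', h1', h2'⟩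
    have h3 : x₀ ^ N' * w = x₀ ^ N * w' := by
      apply hπ
      rw [map_mul, map_mul, map_pow, map_pow, ← h1, ← h1']; ring
    have h4 := congrArg (fun p => π (d p)) h3
    simp only [Derivation.leibniz, hdn, smul_eq_mul, mul_zero, add_zero, map_mul, map_pow] at h4
    apply mul_left_cancel₀ (pow_ne_zero (N + N') hx)
    rw [pow_add]
    linear_combination x ^ N' * h2 - x ^ N * h2' + x ^ M * h4
  have hadd : ∀ a a' b b', Rel a a' → Rel b b' → Rel (a + b) (a' + b') := by
    rintro a a' b b' ⟨N, w, h1, h2⟩ ⟨N', w', h1', h2'⟩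
    refine ⟨N + N', x₀ ^ N' * w + x₀ ^ N * w', ?_, ?_⟩
    · rw [map_add, map_mul, map_mul, map_pow, map_pow, ← h1, ← h1']; ring
    · simp only [map_add, Derivation.leibniz, hdn, smul_eq_mul, mul_zero, add_zero, map_mul,
        map_pow]
      rw [pow_add]
      linear_combination x ^ N' * h2 + x ^ N * h2'
  have hmul : ∀ a a' b b', Rel a a' → Rel b b' → Rel (a * b) (a * b' + b * a') := by
    rintro a a' b b' ⟨N, w, h1, h2⟩ ⟨N', w', h1', h2'⟩
    refine ⟨N + N', w * w', ?_, ?_⟩
    · rw [map_mul, ← h1, ← h1']; ring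
    · simp only [map_add, Derivation.leibniz, smul_eq_mul, map_mul, ← h1, ← h1']
      rw [pow_add]
      linear_combination x ^ N * a * h2' + x ^ N' * b * h2
  have hconst : ∀ c : ℂ, Rel (algebraMap ℂ B c) 0 := fun c =>
    ⟨0, algebraMap ℂ P c, by simp, by simp⟩
  have hex : ∀ b, ∃ b', Rel b b' := by
    intro b
    have hb : b ∈ Algebra.adjoin ℂ (s : Set B) := hs ▸ Algebra.mem_top
    induction hb using Algebra.adjoin_induction with
    | mem b hb =>
      have hle : n b ≤ M := Finset.le_sup (f := n) hb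
      obtain ⟨k, hk⟩ := Nat.exists_eq_add_of_le hle
      exact ⟨x ^ k * π (d (pn b)), n b, pn b, hn b, by rw [hk]; ring⟩
    | algebraMap r => exact ⟨0, hconst r⟩
    | add a b _ _ ha hb =>
      obtain ⟨a', ha⟩ := ha
      obtain ⟨b', hb⟩ := hb
      exact ⟨_, hadd _ _ _ _ ha hb⟩
    | mul a b _ _ ha hb =>
      obtain ⟨a', ha⟩ := ha
      obtain ⟨b', hb⟩ := hb
      exact ⟨_, hmul _ _ _ _ ha hb⟩
  choose D hD using hex
  let Dl : B →ₗ[ℂ] B :=
    { toFun := D
      map_add' := fun a b => huniq _ _ _ (hD _) (hadd _ _ _ _ (hD a) (hD b))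
      map_smul' := fun c a => by
        have := hmul _ _ _ _ (hconst c) (hD a)
        rw [mul_zero, add_zero, ← Algebra.smul_def, ← Algebra.smul_def] at this
        exact huniq _ _ _ (hD _) this }
  refine ⟨M, Derivation.mk' Dl fun a b => huniq _ _ _ (hD _) (hmul _ _ _ _ (hD a) (hD b)),
    fun w => huniq _ _ _ (hD _) ⟨0, w, by simp, by simp⟩⟩

end ext

open MvPolynomial

lemma pderiv_comm' {σ : Type*} (i j : σ) (p : MvPolynomial σ ℂ) :
    pderiv i (pderiv j p) = pderiv j (pderiv i p) := by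
  classical
  induction p using MvPolynomial.induction_on with
  | C a => simp
  | add p q hp hq => simp [hp, hq]
  | mul_X p k hp =>
    have h : ∀ a b : σ, pderiv a (pderiv b (X k : MvPolynomial σ ℂ)) = 0 := by
      intro a b
      by_cases hb : k = b
      · subst hb; simp
      · rw [pderiv_X_of_ne hb, map_zero]
    simp only [Derivation.leibniz, smul_eq_mul, map_add, hp, h]
    ring

lemma mem_adjoin_of_pderiv {τ : Type*} (w : MvPolynomial (Option τ) ℂ)
    (h : ∀ a, pderiv (some a) w = 0) : ∃ r : Polynomial ℂ, w = Polynomial.aeval (X none) r := by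
  classical
  have : w ∈ Algebra.adjoin ℂ {(X none : MvPolynomial (Option τ) ℂ)} := by
    rw [w.as_sum]
    refine sum_mem fun s hs => ?_
    have hs0 : ∀ a, s (some a) = 0 := by
      intro a
      by_contra hne
      have h1 := coeff_pderiv (i := some a) w (s - Finsupp.single (some a) 1)
      have h2 : s - Finsupp.single (some a) 1 + Finsupp.single (some a) 1 = s := by
        apply tsub_add_cancel_of_le
        rw [Finsupp.single_le_iff]
        omega
      rw [h a, coeff_zero, h2] at h1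
      rcases mul_eq_zero.1 h1.symm with h3 | h3
      · exact (mem_support_iff.1 hs) h3
      · exact Nat.cast_add_one_ne_zero _ h3
    have : s = Finsupp.single none (s none) := by
      ext o
      cases o with
      | none => simp
      | some a => simp [hs0]
    rw [this, ← C_mul_X_pow_eq_monomial]
    exact mul_mem (Subalgebra.algebraMap_mem _ _)
      (pow_mem (Algebra.subset_adjoin (Set.mem_singleton _)) _)
  rw [Algebra.adjoin_singleton_eq_range_aeval] at this
  obtain ⟨r, hr⟩ := this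
  exact ⟨r, hr.symm⟩

section main
variable (m : ℕ)

abbrev Am := MvPolynomial (Fin (4 + m)) ℂ
abbrev Wm := MvPolynomial (Option (Fin 3 ⊕ Fin m)) ℂ

noncomputable def xx (i : Fin 4) : Am m := X (Fin.castAdd m i)

noncomputable def Fm : Am m := cF (xx m 0) (xx m 1) (xx m 2) (xx m 3)

lemma Fm_eq : rename (Fin.castAdd m) F409 = Fm m := by simp [F409, Fm, xx]

noncomputable def ss : Fin 3 → B4 :=
  ![cs1 (X 0) (X 1) (X 2) (X 3), cs2 (X 0) (X 1) (X 2) (X 3), cs3 (X 0) (X 1) (X 2) (X 3)]

noncomputable def jm : Wm m →ₐ[ℂ] Am m :=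
  aeval fun o => o.elim (Fm m)
    (Sum.elim (fun k => rename (Fin.castAdd m) (ss k)) fun i => X (Fin.natAdd 4 i))

lemma jm_none : jm m (X none) = Fm m := by simp [jm]
lemma jm_inl (k : Fin 3) : jm m (X (some (Sum.inl k))) = rename (Fin.castAdd m) (ss k) := by
  simp [jm]
lemma jm_inr (i : Fin m) : jm m (X (some (Sum.inr i))) = X (Fin.natAdd 4 i) := by simp [jm]

noncomputable def retr : Am m →ₐ[ℂ] Polynomial ℂ :=
  aeval (Fin.addCases ![Polynomial.X, 0, 0, 0] fun _ => 0)

lemma retr_F : retr m (Fm m) = Polynomial.X := by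
  rw [Fm, map_cF]
  simp [retr, xx, cF, tF, ct, cz, cy]

lemma Fm_ne_zero : Fm m ≠ 0 := by
  intro h
  have := retr_F m
  rw [h, map_zero] at this
  exact Polynomial.X_ne_zero this.symm

lemma jm_inj : Function.Injective (jm m) := by
  rw [injective_iff_map_eq_zero]
  intro w hw
  have h2 : X none * w = 0 := by
    apply MvPolynomial.funext
    intro x
    by_cases hx0 : x none = 0
    · simp [hx0]
    have hl : x none * (x none)⁻¹ = 1 := mul_inv_cancel₀ hx0
    let s : Fin 3 → ℂ := fun k => x (some (Sum.inl k))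
    let p : Fin (4 + m) → ℂ := Fin.addCases
      ![ia (x none) (x none)⁻¹ (s 0) (s 1), ib (x none) (x none)⁻¹ (s 0) (s 1) (s 2),
        ic (x none) (x none)⁻¹ (s 0) (s 1) (s 2), ie (x none) (x none)⁻¹ (s 0) (s 1) (s 2)]
      fun i => x (some (Sum.inr i))
    have h3 : (aeval p).comp (jm m) = aeval x := by
      ext o
      rcases o with _ | k | i
      · simp [jm_none, Fm, xx, p, cF_i hl]
      · fin_cases k
        · simp [jm_inl, ss, p, cs1_i hl, s]
        · simp [jm_inl, ss, p, cs2_i hl, s]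
        · simp [jm_inl, ss, p, cs3_i hl, s]
      · simp [jm_inr, p]
    have h4 := DFunLike.congr_fun h3 w
    rw [AlgHom.comp_apply, hw, map_zero] at h4
    have h5 : MvPolynomial.eval x w = 0 := h4.symm
    simp [h5]
  exact (mul_eq_zero.1 h2).resolve_left (X_ne_zero _)

lemma jm_loc (b : Am m) : b ∈ locAlg (jm m) (X none) := by
  set S := locAlg (jm m) (X none) with hS
  have hF : Fm m ∈ S := jm_none m ▸ map_mem_locAlg _ _ _
  have h1 : cs1 (xx m 0) (xx m 1) (xx m 2) (xx m 3) ∈ S := by
    have := map_mem_locAlg (jm m) (X none) (X (some (Sum.inl 0)))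
    simpa [jm_inl, ss, xx] using this
  have h2 : cs2 (xx m 0) (xx m 1) (xx m 2) (xx m 3) ∈ S := by
    have := map_mem_locAlg (jm m) (X none) (X (some (Sum.inl 1)))
    simpa [jm_inl, ss, xx] using this
  have h3 : cs3 (xx m 0) (xx m 1) (xx m 2) (xx m 3) ∈ S := by
    have := map_mem_locAlg (jm m) (X none) (X (some (Sum.inl 2)))
    simpa [jm_inl, ss, xx] using this
  have hy : cy (xx m 0) (xx m 1) (xx m 2) (xx m 3) ∈ S := by
    apply mem_locAlg_of_mul 1
    rw [pow_one, jm_none, Fm, cF_mul]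
    exact add_mem (pow_mem h1 _) (pow_mem h2 _)
  have hz : cz (xx m 0) (xx m 1) (xx m 2) (xx m 3) ∈ S := by
    have := sub_mem h1 (pow_mem hy 3)
    rwa [cs1, add_sub_cancel_right] at this
  have ht : ct (xx m 0) (xx m 1) (xx m 2) ∈ S := by
    have := add_mem h2 (pow_mem hy 2)
    rwa [cs2, sub_add_cancel] at this
  have h2S : (2 : Am m) ∈ S := ofNat_mem S 2
  have h3S : (3 : Am m) ∈ S := ofNat_mem S 3
  have h4S : (4 : Am m) ∈ S := ofNat_mem S 4
  have ha : xx m 0 ∈ S := by
    have := sub_mem (add_mem (sub_mem hF (mul_mem (mul_mem h2S (pow_mem hy 2)) hz))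
      (mul_mem (mul_mem h3S hy) (pow_mem ht 2))) (mul_mem (mul_mem h3S (pow_mem hy 3)) ht)
    convert this using 1
    rw [Fm, cF, tF]; ring
  have hα : cα (xx m 0) (xx m 1) (xx m 2) (xx m 3) ∈ S :=
    add_mem (add_mem hF (mul_mem (mul_mem h2S (pow_mem hy 2)) hz)) (mul_mem h4S (pow_mem hy 5))
  have hβ : cβ (xx m 0) (xx m 1) (xx m 2) (xx m 3) ∈ S :=
    sub_mem (mul_mem (sub_mem (mul_mem h3S (pow_mem hy 3)) (mul_mem (mul_mem h3S hy) ht))
      (add_mem hF (mul_mem (mul_mem h2S (pow_mem hy 2)) hz)))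
      (mul_mem (mul_mem h4S (pow_mem hy 4)) (pow_mem ht 2))
  have hb : xx m 1 ∈ S := by
    apply mem_locAlg_of_mul 2
    rw [jm_none, Fm, cF_b]
    exact sub_mem (mul_mem ha h3) (mul_mem hβ hz)
  have he : xx m 3 ∈ S := by
    apply mem_locAlg_of_mul 2
    rw [jm_none, Fm, cF_e]
    exact add_mem (mul_mem ht h3) (mul_mem hα hz)
  have hc : xx m 2 ∈ S := by
    apply mem_locAlg_of_mul 4
    rw [jm_none, Fm, cF_c]
    exact add_mem (mul_mem (add_mem (mul_mem (pow_mem hα 2) ha)
      (mul_mem (mul_mem (mul_mem h2S hα) hβ) ht)) (add_mem ht (pow_mem hb 2)))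
      (mul_mem (pow_mem hβ 2) (add_mem (sub_mem hy (mul_mem ha (pow_mem he 2)))
        (mul_mem (mul_mem (mul_mem h2S hb) ht) he)))
  refine mv_mem (AlgHom.id ℂ _) _ (fun i => ?_) b
  refine Fin.addCases (fun i => ?_) (fun i => ?_) i
  · fin_cases i
    exacts [ha, hb, hc, he]
  · exact jm_inr m i ▸ map_mem_locAlg _ _ _

lemma pderiv_natAdd_rename (i : Fin m) (q : B4) :
    pderiv (Fin.natAdd 4 i) (rename (Fin.castAdd m) q) = 0 := by
  induction q using MvPolynomial.induction_on with
  | C a => simp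
  | add p q hp hq => simp [hp, hq]
  | mul_X p k hp =>
    have : Fin.castAdd m k ≠ Fin.natAdd 4 i := by
      intro h
      have := congrArg Fin.val h
      simp at this
      omega
    simp only [map_mul, rename_X, Derivation.leibniz, hp, pderiv_X_of_ne this, smul_zero,
      add_zero]

lemma pderiv_jm (i : Fin m) (w : Wm m) :
    pderiv (Fin.natAdd 4 i) (jm m w) = Fm m ^ 0 * jm m (pderiv (some (Sum.inr i)) w) := by
  rw [pow_zero, one_mul]
  induction w using MvPolynomial.induction_on with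
  | C a => simp
  | add p q hp hq => simp [hp, hq]
  | mul_X p o hp =>
    have : pderiv (Fin.natAdd 4 i) (jm m (X o)) = jm m (pderiv (some (Sum.inr i)) (X o)) := by
      rcases o with _ | k | i'
      · rw [jm_none, ← Fm_eq, pderiv_natAdd_rename, pderiv_X_of_ne (by simp), map_zero]
      · rw [jm_inl, pderiv_natAdd_rename, pderiv_X_of_ne (by simp), map_zero]
      · rw [jm_inr]
        by_cases h : i' = i
        · subst h; simp
        · rw [pderiv_X_of_ne (by simpa using h), pderiv_X_of_ne (by simpa using h), map_zero]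
    simp only [map_mul, Derivation.leibniz, smul_eq_mul, map_add, hp, this]

theorem main410 :
    ∃ D : Fin 3 ⊕ Fin m → Derivation ℂ (Am m) (Am m),
      (∀ i : Fin m, D (Sum.inr i) = pderiv (Fin.natAdd 4 i)) ∧
      (∀ a b : Fin 3 ⊕ Fin m, ∀ p : Am m, D a (D b p) = D b (D a p)) ∧
      (∀ a : Fin 3 ⊕ Fin m, ∀ p : Am m, ∃ k : ℕ, (D a)^[k] p = 0) ∧
      LinearIndependent (Am m) D ∧
      (∀ p : Am m, (∀ a : Fin 3 ⊕ Fin m, D a p = 0) ↔
        p ∈ Algebra.adjoin ℂ {rename (Fin.castAdd m) F409}) ∧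
      ∀ g : Am m, (∀ a : Fin 3 ⊕ Fin m, D a g = 0) →
        ¬ ∃ τ : Am m ≃ₐ[ℂ] Am m, τ g = X (Fin.castAdd m 0) := by
  classical
  have hF0 := Fm_ne_zero m
  have hext : ∀ k : Fin 3, ∃ (M : ℕ) (D : Der (Am m)),
      ∀ w, D (jm m w) = Fm m ^ M * jm m (pderiv (some (Sum.inl k)) w) := by
    intro k
    have := extend_der (jm m) (jm_inj m) (X none) (by rw [jm_none]; exact hF0) (jm_loc m)
      (pderiv (some (Sum.inl k))) (pderiv_X_of_ne (by simp))
    rwa [jm_none] at this
  choose M₀ D₀ hD₀ using hext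
  let D : Fin 3 ⊕ Fin m → Derivation ℂ (Am m) (Am m) :=
    Sum.elim D₀ fun i => pderiv (Fin.natAdd 4 i)
  let M : Fin 3 ⊕ Fin m → ℕ := Sum.elim M₀ fun _ => 0
  have hD : ∀ a w, D a (jm m w) = Fm m ^ M a * jm m (pderiv (some a) w) := by
    rintro (k | i) w
    · exact hD₀ k w
    · exact pderiv_jm m i w
  have hDF : ∀ a, D a (Fm m) = 0 := by
    intro a
    rw [← jm_none, hD, pderiv_X_of_ne (by simp), map_zero, mul_zero]
  have hDFn : ∀ a n p, D a (Fm m ^ n * p) = Fm m ^ n * D a p := by
    intro a n p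
    simp [Derivation.leibniz, Derivation.leibniz_pow, hDF]
  have hloc : ∀ p, ∃ N w, Fm m ^ N * p = jm m w := fun p => by
    have := jm_loc m p
    rwa [mem_locAlg, jm_none] at this
  have hker : ∀ p : Am m, (∀ a : Fin 3 ⊕ Fin m, D a p = 0) ↔ p ∈ Algebra.adjoin ℂ {Fm m} := by
    intro p
    constructor
    · intro h
      obtain ⟨N, w, hw⟩ := hloc p
      have h1 : ∀ a, pderiv (some a) w = 0 := by
        intro a
        have := hD a w
        rw [← hw, hDFn, h a, mul_zero] at this
        exact (map_eq_zero_iff _ (jm_inj m)).1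
          ((mul_eq_zero.1 this.symm).resolve_left (pow_ne_zero _ hF0))
      obtain ⟨r, rfl⟩ := mem_adjoin_of_pderiv w h1
      rw [← Polynomial.aeval_algHom_apply, jm_none] at hw
      have h2 := congrArg (retr m) hw
      rw [map_mul, map_pow, ← Polynomial.aeval_algHom_apply, retr_F, Polynomial.aeval_X_left,
        AlgHom.id_apply] at h2
      rw [← h2, map_mul, map_pow, Polynomial.aeval_X] at hw
      rw [mul_left_cancel₀ (pow_ne_zero _ hF0) hw, Algebra.adjoin_singleton_eq_range_aeval]
      exact ⟨_, rfl⟩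
    · intro h a
      rw [Algebra.adjoin_singleton_eq_range_aeval] at h
      obtain ⟨r, rfl⟩ := h
      change D a (Polynomial.aeval (Fm m) r) = 0
      rw [Derivation.map_aeval, hDF, smul_zero]
  refine ⟨D, fun i => rfl, ?_, ?_, ?_, ?_, ?_⟩
  · intro a b p
    obtain ⟨N, w, hw⟩ := hloc p
    apply mul_left_cancel₀ (pow_ne_zero N hF0)
    rw [← hDFn, ← hDFn, ← hDFn, ← hDFn, hw, hD, hD, hDFn, hDFn, hD, hD, pderiv_comm']
    ring
  · intro a p
    obtain ⟨N, w, hw⟩ := hloc p
    obtain ⟨k, hk⟩ := LN_pderiv (k := ℂ) (some a) w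
    refine ⟨k, ?_⟩
    have : ∀ n, Fm m ^ N * (D a)^[n] p = Fm m ^ (M a * n) * jm m ((pderiv (some a))^[n] w) := by
      intro n
      induction n with
      | zero => simpa using hw
      | succ n ih =>
        rw [Function.iterate_succ_apply', Function.iterate_succ_apply', ← hDFn, ih, hDFn, hD]
        ring
    have h1 := this k
    have hk' : (pderiv (some a))^[k] w = 0 := hk
    rw [hk', map_zero, mul_zero] at h1
    exact (mul_eq_zero.1 h1).resolve_left (pow_ne_zero _ hF0)
  · rw [Fintype.linearIndependent_iff]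
    intro g hg b
    have h1 := congrArg (fun E : Derivation ℂ (Am m) (Am m) => E (jm m (X (some b)))) hg
    have h2 : ∀ E : (Fin 3 ⊕ Fin m) → Derivation ℂ (Am m) (Am m), ∀ p,
        (∑ a, E a) p = ∑ a, E a p := by
      intro E p
      have := map_sum (Derivation.coeFnAddMonoidHom (R := ℂ) (A := Am m) (M := Am m)) E
        Finset.univ
      simp only [Derivation.coeFnAddMonoidHom_apply] at this
      rw [this, Finset.sum_apply]
    simp only [h2, Derivation.smul_apply, hD, Derivation.zero_apply] at h1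
    rw [Finset.sum_eq_single b] at h1
    · rw [pderiv_X_self, map_one, mul_one, smul_eq_mul] at h1
      exact (mul_eq_zero.1 h1).resolve_right (pow_ne_zero _ hF0)
    · intro a _ hab
      rw [pderiv_X_of_ne (by simpa using hab.symm), map_zero, mul_zero, smul_zero]
    · simp
  · rw [Fm_eq]; exact hker
  · intro g hg
    have h := (hker g).1 hg
    rw [Algebra.adjoin_singleton_eq_range_aeval] at h
    obtain ⟨r, rfl⟩ := h
    refine no_coord _ (eval (Fin.addCases ![2, 1, 1, 0] fun _ => 0)) (fun E => ?_) _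
    change eval _ (E (Polynomial.aeval (Fm m) r)) = 0
    rw [Derivation.map_aeval, smul_eq_mul, map_mul, Fm,
      crit E _ _ _ _ _ (by simp [xx]) (by simp [xx]) (by simp [xx]) (by simp [xx]), mul_zero]

end main

end Crest.Agent.R268
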