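import Crest.Agent.R268.Formulas

/-! Stable triviality and fibres for the degree five polynomial of row 268. -/

set_option autoImplicit false

namespace Crest.Agent.R268

open MvPolynomial

section pts
variable {A : Type*} [CommRing A]

/-- from the coordinates `(a,b,u,d,t)` to the new coordinates -/
def fwd (p : Fin 5 → A) : Fin 5 → A :=
  let x := bf (p 0) (p 1) (p 2) (p 3)
  let w := bw (p 0) (p 1) (p 2) (p 3)
  let h := bh (p 0) (p 1) (p 2) (p 3)
  let u := p 2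
  let Y := bY (p 0) (p 1) (p 2) (p 3)
  let t := p 4
  let w₁ := fw x w h u Y t
  let h₁ := fh x h t
  let u₁ := fu x w h u Y t
  let Y₁ := fY x w h u Y t
  ![x, w₁, h₁, sV w₁ h₁ u₁ Y₁, t + mH1 x w₁ h₁ u₁ Y₁]

/-- the inverse map -/
def bwd (q : Fin 5 → A) : Fin 5 → A :=
  let x := q 0
  let w₁ := q 1
  let h₁ := q 2
  let u₁ := su w₁ h₁ (h₁ - x * q 4) (q 3)
  let Y₁ := sY w₁ h₁ (h₁ - x * q 4) (q 3)
  let t := q 4 - mH1 x w₁ h₁ u₁ Y₁
  let w := fw x w₁ h₁ u₁ Y₁ (-t)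
  let h := fh x h₁ (-t)
  let u := fu x w₁ h₁ u₁ Y₁ (-t)
  let Y := fY x w₁ h₁ u₁ Y₁ (-t)
  ![ma x w h u Y, mb x w h u Y, u, md x w h u Y, t]

lemma bwd_fwd (p : Fin 5 → A) : bwd (fwd p) = p := by
  set x := bf (p 0) (p 1) (p 2) (p 3) with hx
  set w := bw (p 0) (p 1) (p 2) (p 3) with hw
  set h := bh (p 0) (p 1) (p 2) (p 3) with hh
  set Y := bY (p 0) (p 1) (p 2) (p 3) with hY
  have H0 : mH x w h (p 2) Y = 0 := mH_b ..
  have H1 := mH_f x w h (p 2) Y (p 4)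
  rw [H0, mH_eq] at H1
  have H2 : fh x h (p 4) - x * (p 4 + mH1 x (fw x w h (p 2) Y (p 4)) (fh x h (p 4))
      (fu x w h (p 2) Y (p 4)) (fY x w h (p 2) Y (p 4))) =
      sU (fw x w h (p 2) Y (p 4)) (fh x h (p 4))
      (fu x w h (p 2) Y (p 4)) (fY x w h (p 2) Y (p 4)) := by
    linear_combination -H1
  simp only [bwd, fwd, Matrix.cons_val_zero, Matrix.cons_val_one, Matrix.cons_val,
    ← hx, ← hw, ← hh, ← hY, H2, su_s, sY_s, add_sub_cancel_right, fw_f, fh_f, fu_f, fY_f]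
  simp only [hx, hw, hh, hY, ma_b, mb_b, md_b]
  ext i
  fin_cases i <;> rfl

lemma fwd_bwd (q : Fin 5 → A) : fwd (bwd q) = q := by
  set u₁ := su (q 1) (q 2) (q 2 - q 0 * q 4) (q 3) with hu
  set Y₁ := sY (q 1) (q 2) (q 2 - q 0 * q 4) (q 3) with hY
  set t := q 4 - mH1 (q 0) (q 1) (q 2) u₁ Y₁ with ht
  have H1 := mH_f (q 0) (q 1) (q 2) u₁ Y₁ (-t)
  have H2 : mH (q 0) (q 1) (q 2) u₁ Y₁ - q 0 * (-t) = 0 := by
    rw [mH_eq, hu, hY, sU_s, ← hu, ← hY, ht]; ring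
  rw [H2] at H1
  have e1 := fw_f (q 0) (q 1) (q 2) u₁ Y₁ (-t)
  have e2 := fh_f (q 0) (q 2) (-t)
  have e3 := fu_f (q 0) (q 1) (q 2) u₁ Y₁ (-t)
  have e4 := fY_f (q 0) (q 1) (q 2) u₁ Y₁ (-t)
  rw [neg_neg] at e1 e2 e3 e4
  simp only [bwd, fwd, Matrix.cons_val_zero, Matrix.cons_val_one, Matrix.cons_val,
    ← hu, ← hY, ← ht, bf_m H1, bw_m H1, bh_m H1, bY_m H1, e1, e2, e3, e4]
  have e5 : t + mH1 (q 0) (q 1) (q 2) u₁ Y₁ = q 4 := by rw [ht]; ring
  rw [e5, hu, hY, sV_s]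
  ext i
  fin_cases i <;> rfl

lemma map_fwd {B F : Type*} [CommRing B] [FunLike F A B] [RingHomClass F A B] (φ : F)
    (p : Fin 5 → A) (i : Fin 5) : φ (fwd p i) = fwd (fun j => φ (p j)) i := by
  fin_cases i <;> simp [fwd]

lemma map_bwd {B F : Type*} [CommRing B] [FunLike F A B] [RingHomClass F A B] (φ : F)
    (p : Fin 5 → A) (i : Fin 5) : φ (bwd p i) = bwd (fun j => φ (p j)) i := by
  fin_cases i <;> simp [bwd]

end pts

/-- The polynomial of statement S0408. -/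
noncomputable def f408 : MvPolynomial (Fin 4) ℂ := bf (X 0) (X 1) (X 2) (X 3)

abbrev B4 := MvPolynomial (Fin 4) ℂ

noncomputable def gen5 : Fin 5 → Polynomial B4 :=
  ![Polynomial.C (X 0), Polynomial.C (X 1), Polynomial.C (X 2), Polynomial.C (X 3), Polynomial.X]

noncomputable def hom5 (p : Fin 5 → Polynomial B4) : Polynomial B4 →ₐ[ℂ] Polynomial B4 :=
  Polynomial.aevalTower (aeval ![p 0, p 1, p 2, p 3]) (p 4)

lemma hom5_gen (p : Fin 5 → Polynomial B4) (i : Fin 5) : hom5 p (gen5 i) = p i := by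
  fin_cases i <;> simp [hom5, gen5]

lemma hom5_ext (φ : Polynomial B4 →ₐ[ℂ] Polynomial B4) (h : ∀ i, φ (gen5 i) = gen5 i) :
    φ = AlgHom.id ℂ _ := by
  apply Polynomial.algHom_ext'
  · ext i : 1
    have := h i.castSucc
    fin_cases i <;> simpa [gen5] using this
  · simpa [gen5] using h 4

theorem f408_stable : ∃ σ : Polynomial B4 ≃ₐ[ℂ] Polynomial B4,
    σ (Polynomial.C f408) = Polynomial.C (X 0) := by
  refine ⟨AlgEquiv.ofAlgHom (hom5 (bwd gen5)) (hom5 (fwd gen5)) ?_ ?_, ?_⟩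
  · apply hom5_ext
    intro i
    rw [AlgHom.comp_apply, hom5_gen, map_fwd]
    simp only [hom5_gen]
    rw [fwd_bwd]
  · apply hom5_ext
    intro i
    rw [AlgHom.comp_apply, hom5_gen, map_bwd]
    simp only [hom5_gen]
    rw [bwd_fwd]
  · have h1 : Polynomial.C f408 = fwd gen5 0 := by simp [fwd, gen5, f408]
    rw [h1]
    change hom5 (bwd gen5) _ = _
    rw [map_fwd]
    simp only [hom5_gen]
    rw [fwd_bwd]
    rfl

/-- A criterion for a hypersurface to be an affine three-space. -/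
theorem quot_equiv (g : B4) (s : Fin 3 → B4) (t : Fin 4 → MvPolynomial (Fin 3) ℂ)
    (h1 : aeval t g = 0) (h2 : ∀ j, aeval t (s j) = X j)
    (h3 : ∀ i, Ideal.Quotient.mkₐ ℂ (Ideal.span {g}) (aeval s (t i)) =
      Ideal.Quotient.mkₐ ℂ (Ideal.span {g}) (X i)) :
    Nonempty ((B4 ⧸ Ideal.span {g}) ≃ₐ[ℂ] MvPolynomial (Fin 3) ℂ) := by
  refine ⟨AlgEquiv.ofAlgHom (Ideal.Quotient.liftₐ _ (aeval t) ?_)
    ((Ideal.Quotient.mkₐ ℂ (Ideal.span {g})).comp (aeval s)) ?_ ?_⟩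
  · intro a ha
    obtain ⟨c, rfl⟩ := Ideal.mem_span_singleton'.1 ha
    rw [map_mul, h1, mul_zero]
  · ext j : 1
    rw [AlgHom.comp_apply, AlgHom.comp_apply, aeval_X, AlgHom.id_apply, ← h2 j]
    rfl
  · apply Ideal.Quotient.algHom_ext
    ext i : 1
    have : ∀ h, Ideal.Quotient.liftₐ (Ideal.span {g}) (aeval t) h
        (Ideal.Quotient.mkₐ ℂ (Ideal.span {g}) (X i)) = t i := fun h => by
      rw [← aeval_X (R := ℂ) t i]; rfl
    rw [AlgHom.comp_apply, AlgHom.comp_apply, this, AlgHom.comp_apply, h3 i]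
    rfl

section fib
variable {A : Type*} [CommRing A]

/-- point of the fibre `f = l` (with `l * m = 1`) with prescribed `Q, v, g` -/
def gh (m Q v g : A) : A := m * Phi Q v g
def gw (m Q v g : A) : A := -g - v * gh m Q v g - Q ^ 2
def gu (m Q v g : A) : A := m * (v - Q * gw m Q v g)
def gY (m Q v g : A) : A := m * (Q - gw m Q v g * (gw m Q v g - gh m Q v g))

variable {l m : A}

lemma mQ_g (hl : l * m = 1) (Q v g : A) : mQ l (gw m Q v g) (gh m Q v g) (gY m Q v g) = Q := by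
  rw [mQ, gY]; linear_combination (Q - gw m Q v g * (gw m Q v g - gh m Q v g)) * hl

lemma mv_g (hl : l * m = 1) (Q v g : A) :
    mv l (gw m Q v g) (gh m Q v g) (gu m Q v g) (gY m Q v g) = v := by
  rw [mv, mQ_g hl, gu]; linear_combination (v - Q * gw m Q v g) * hl

lemma mg_g (hl : l * m = 1) (Q v g : A) :
    mg l (gw m Q v g) (gh m Q v g) (gu m Q v g) (gY m Q v g) = g := by
  rw [mg, mQ_g hl, mv_g hl, gw]; ring

lemma mH_g (hl : l * m = 1) (Q v g : A) :
    mH l (gw m Q v g) (gh m Q v g) (gu m Q v g) (gY m Q v g) = 0 := by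
  have := mul_mH l (gw m Q v g) (gh m Q v g) (gu m Q v g) (gY m Q v g)
  rw [mQ_g hl, mv_g hl, mg_g hl] at this
  nth_rewrite 2 [gh] at this
  linear_combination m * this -
    (mH l (gw m Q v g) (gh m Q v g) (gu m Q v g) (gY m Q v g) + m * Phi Q v g) * hl

variable {a b u d : A}

lemma gh_b (hl : bf a b u d * m = 1) :
    gh m (bQ a b u d) (bv a b u d) (bg a b u d) = bh a b u d := by
  rw [gh, ← bf_mul_h]; linear_combination bh a b u d * hl

lemma gw_b (hl : bf a b u d * m = 1) :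
    gw m (bQ a b u d) (bv a b u d) (bg a b u d) = bw a b u d := by
  rw [gw, gh_b hl, bg]; ring

lemma gu_b (hl : bf a b u d * m = 1) :
    gu m (bQ a b u d) (bv a b u d) (bg a b u d) = u := by
  rw [gu, gw_b hl, ← bf_mul_u]; linear_combination u * hl

lemma gY_b (hl : bf a b u d * m = 1) :
    gY m (bQ a b u d) (bv a b u d) (bg a b u d) = bY a b u d := by
  rw [gY, gw_b hl, gh_b hl, ← bf_mul_Y]; linear_combination bY a b u d * hl

/-- The point of the fibre. -/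
def gpt (l m Q v g : A) : Fin 4 → A :=
  ![ma l (gw m Q v g) (gh m Q v g) (gu m Q v g) (gY m Q v g),
    mb l (gw m Q v g) (gh m Q v g) (gu m Q v g) (gY m Q v g), gu m Q v g,
    md l (gw m Q v g) (gh m Q v g) (gu m Q v g) (gY m Q v g)]

lemma map_gpt {B F : Type*} [CommRing B] [FunLike F A B] [RingHomClass F A B] (φ : F)
    (l m Q v g : A) (i : Fin 4) :
    φ (gpt l m Q v g i) = gpt (φ l) (φ m) (φ Q) (φ v) (φ g) i := by
  fin_cases i <;> simp [gpt, gw, gh, gu, gY]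

lemma gpt_b (hl : bf a b u d * m = 1) :
    gpt (bf a b u d) m (bQ a b u d) (bv a b u d) (bg a b u d) = ![a, b, u, d] := by
  simp only [gpt, gh_b hl, gw_b hl, gu_b hl, gY_b hl, ma_b, mb_b, md_b]

/-- The point of the zero fibre. -/
def zpt (w h V : A) : Fin 4 → A :=
  ![ma 0 w h (su w h h V) (sY w h h V), mb 0 w h (su w h h V) (sY w h h V), su w h h V,
    md 0 w h (su w h h V) (sY w h h V)]

lemma mH_z (w h V : A) : mH 0 w h (su w h h V) (sY w h h V) = 0 := by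
  rw [mH_eq, sU_s]; ring

lemma map_zpt {B F : Type*} [CommRing B] [FunLike F A B] [RingHomClass F A B] (φ : F)
    (w h V : A) (i : Fin 4) : φ (zpt w h V i) = zpt (φ w) (φ h) (φ V) i := by
  fin_cases i <;> simp [zpt]

lemma zpt_b (hl : bf a b u d = 0) :
    zpt (bw a b u d) (bh a b u d) (sV (bw a b u d) (bh a b u d) u (bY a b u d)) =
      ![a, b, u, d] := by
  have H := mH_b a b u d
  rw [mH_eq, hl] at H
  have H' : sU (bw a b u d) (bh a b u d) u (bY a b u d) = bh a b u d := by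
    linear_combination H
  have e1 := su_s (bw a b u d) (bh a b u d) u (bY a b u d)
  have e2 := sY_s (bw a b u d) (bh a b u d) u (bY a b u d)
  rw [H'] at e1 e2
  simp only [zpt, e1, e2]
  rw [← hl, ma_b, mb_b, md_b]

end fib

theorem f408_fibre (c : ℂ) :
    Nonempty ((B4 ⧸ Ideal.span {f408 - C c}) ≃ₐ[ℂ] MvPolynomial (Fin 3) ℂ) := by
  set mk := Ideal.Quotient.mkₐ ℂ (Ideal.span {f408 - C c}) with hmk
  have hf : bf (mk (X 0)) (mk (X 1)) (mk (X 2)) (mk (X 3)) = algebraMap ℂ _ c := by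
    have : mk (f408 - C c) = 0 :=
      Ideal.Quotient.eq_zero_iff_mem.2 (Ideal.mem_span_singleton_self _)
    rw [map_sub, sub_eq_zero] at this
    rw [← map_bf, ← mk.commutes]
    exact this
  by_cases hc : c = 0
  · subst hc
    have H := mH_z (A := MvPolynomial (Fin 3) ℂ) (X 0) (X 1) (X 2)
    refine quot_equiv _ ![bw (X 0) (X 1) (X 2) (X 3), bh (X 0) (X 1) (X 2) (X 3),
      sV (bw (X 0) (X 1) (X 2) (X 3)) (bh (X 0) (X 1) (X 2) (X 3)) (X 2)
        (bY (X 0) (X 1) (X 2) (X 3))] (zpt (X 0) (X 1) (X 2)) ?_ ?_ ?_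
    · simp [f408, zpt, bf_m H]
    · intro j
      fin_cases j <;> simp [zpt, bw_m H, bh_m H, bY_m H, sV_s]
    · intro i
      rw [← hmk, map_zpt, map_zpt]
      replace hf := hf.trans (map_zero _)
      simp only [aeval_X, Matrix.cons_val_zero, Matrix.cons_val_one, Matrix.cons_val, map_bw,
        map_bh, map_sV, map_bY, zpt_b hf]
      fin_cases i <;> rfl
  · have hl : (C c : MvPolynomial (Fin 3) ℂ) * C c⁻¹ = 1 := by
      rw [← C_mul, mul_inv_cancel₀ hc, C_1]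
    have H := mH_g hl (X 0) (X 1) (X 2)
    refine quot_equiv _ ![bQ (X 0) (X 1) (X 2) (X 3), bv (X 0) (X 1) (X 2) (X 3),
      bg (X 0) (X 1) (X 2) (X 3)] (gpt (C c) (C c⁻¹) (X 0) (X 1) (X 2)) ?_ ?_ ?_
    · simp [f408, gpt, bf_m H]
    · intro j
      fin_cases j <;> simp [gpt, bQ_m H, bv_m H, bg_m H, mQ_g hl, mv_g hl, mg_g hl]
    · intro i
      have hm : bf (mk (X 0)) (mk (X 1)) (mk (X 2)) (mk (X 3)) * algebraMap ℂ _ c⁻¹ = 1 := by
        rw [hf, ← map_mul, mul_inv_cancel₀ hc, map_one]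
      rw [← hmk, map_gpt, map_gpt]
      simp only [aeval_X, aeval_C, Matrix.cons_val_zero, Matrix.cons_val_one, Matrix.cons_val,
        map_bQ, map_bv, map_bg, AlgHom.commutes]
      rw [← hf, gpt_b hm]
      fin_cases i <;> rfl

end Crest.Agent.R268
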