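import Crest.Agent.R268.Top
import Crest.Agent.R268.Stable

/-! The polynomial with a critical point (statements S0409 and S0410). -/

set_option autoImplicit false

namespace Crest.Agent.R268

section defs
variable {A : Type*} [CommRing A]

def ct (a b c : A) : A := a * c - b ^ 2
def cz (a b c e : A) : A := a * e - ct a b c * b
def cy (a b c e : A) : A := a * e ^ 2 - 2 * b * ct a b c * e + c * ct a b c ^ 2
def tF (a t z y : A) : A := a + 2 * y ^ 2 * z - 3 * y * t ^ 2 + 3 * y ^ 3 * t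
def tα (a t z y : A) : A := tF a t z y + 2 * y ^ 2 * z + 4 * y ^ 5
def tβ (a t z y : A) : A :=
  (3 * y ^ 3 - 3 * y * t) * (tF a t z y + 2 * y ^ 2 * z) - 4 * y ^ 4 * t ^ 2
def cF (a b c e : A) : A := tF a (ct a b c) (cz a b c e) (cy a b c e)
def cα (a b c e : A) : A := tα a (ct a b c) (cz a b c e) (cy a b c e)
def cβ (a b c e : A) : A := tβ a (ct a b c) (cz a b c e) (cy a b c e)
def cs1 (a b c e : A) : A := cz a b c e + cy a b c e ^ 3
def cs2 (a b c e : A) : A := ct a b c - cy a b c e ^ 2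
def cs3 (a b c e : A) : A := cα a b c e * b + cβ a b c e * e

def iy (m s₁ s₂ : A) : A := m * (s₁ ^ 2 + s₂ ^ 3)
def iz (m s₁ s₂ : A) : A := s₁ - iy m s₁ s₂ ^ 3
def it (m s₁ s₂ : A) : A := s₂ + iy m s₁ s₂ ^ 2
def ia (l m s₁ s₂ : A) : A :=
  l - 2 * iy m s₁ s₂ ^ 2 * iz m s₁ s₂ + 3 * iy m s₁ s₂ * it m s₁ s₂ ^ 2 -
    3 * iy m s₁ s₂ ^ 3 * it m s₁ s₂
def iα (l m s₁ s₂ : A) : A := tα (ia l m s₁ s₂) (it m s₁ s₂) (iz m s₁ s₂) (iy m s₁ s₂)
def iβ (l m s₁ s₂ : A) : A := tβ (ia l m s₁ s₂) (it m s₁ s₂) (iz m s₁ s₂) (iy m s₁ s₂)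
def ib (l m s₁ s₂ s₃ : A) : A := m ^ 2 * (ia l m s₁ s₂ * s₃ - iβ l m s₁ s₂ * iz m s₁ s₂)
def ie (l m s₁ s₂ s₃ : A) : A := m ^ 2 * (it m s₁ s₂ * s₃ + iα l m s₁ s₂ * iz m s₁ s₂)
def cc (a t y α β b e : A) : A :=
  (α ^ 2 * a + 2 * α * β * t) * (t + b ^ 2) + β ^ 2 * (y - a * e ^ 2 + 2 * b * t * e)
def ic (l m s₁ s₂ s₃ : A) : A :=
  m ^ 4 * cc (ia l m s₁ s₂) (it m s₁ s₂) (iy m s₁ s₂) (iα l m s₁ s₂) (iβ l m s₁ s₂)
    (ib l m s₁ s₂ s₃) (ie l m s₁ s₂ s₃)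

end defs

section map
variable {A B F : Type*} [CommRing A] [CommRing B] [FunLike F A B] [RingHomClass F A B] (φ : F)

@[simp] lemma map_ct (a b c : A) : φ (ct a b c) = ct (φ a) (φ b) (φ c) := by simp [ct]
@[simp] lemma map_cz (a b c e : A) : φ (cz a b c e) = cz (φ a) (φ b) (φ c) (φ e) := by simp [cz]
@[simp] lemma map_cy (a b c e : A) : φ (cy a b c e) = cy (φ a) (φ b) (φ c) (φ e) := by
  simp [cy, map_ofNat]
@[simp] lemma map_tF (a b c e : A) : φ (tF a b c e) = tF (φ a) (φ b) (φ c) (φ e) := by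
  simp [tF, map_ofNat]
@[simp] lemma map_tα (a b c e : A) : φ (tα a b c e) = tα (φ a) (φ b) (φ c) (φ e) := by
  simp [tα, map_ofNat]
@[simp] lemma map_tβ (a b c e : A) : φ (tβ a b c e) = tβ (φ a) (φ b) (φ c) (φ e) := by
  simp [tβ, map_ofNat]
@[simp] lemma map_cF (a b c e : A) : φ (cF a b c e) = cF (φ a) (φ b) (φ c) (φ e) := by simp [cF]
@[simp] lemma map_cα (a b c e : A) : φ (cα a b c e) = cα (φ a) (φ b) (φ c) (φ e) := by simp [cα]
@[simp] lemma map_cβ (a b c e : A) : φ (cβ a b c e) = cβ (φ a) (φ b) (φ c) (φ e) := by simp [cβ]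
@[simp] lemma map_cs1 (a b c e : A) : φ (cs1 a b c e) = cs1 (φ a) (φ b) (φ c) (φ e) := by
  simp [cs1]
@[simp] lemma map_cs2 (a b c e : A) : φ (cs2 a b c e) = cs2 (φ a) (φ b) (φ c) (φ e) := by
  simp [cs2]
@[simp] lemma map_cs3 (a b c e : A) : φ (cs3 a b c e) = cs3 (φ a) (φ b) (φ c) (φ e) := by
  simp [cs3]
@[simp] lemma map_iy (a b c : A) : φ (iy a b c) = iy (φ a) (φ b) (φ c) := by simp [iy]
@[simp] lemma map_iz (a b c : A) : φ (iz a b c) = iz (φ a) (φ b) (φ c) := by simp [iz]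
@[simp] lemma map_it (a b c : A) : φ (it a b c) = it (φ a) (φ b) (φ c) := by simp [it]
@[simp] lemma map_ia (a b c e : A) : φ (ia a b c e) = ia (φ a) (φ b) (φ c) (φ e) := by
  simp [ia, map_ofNat]
@[simp] lemma map_iα (a b c e : A) : φ (iα a b c e) = iα (φ a) (φ b) (φ c) (φ e) := by
  simp [iα]
@[simp] lemma map_iβ (a b c e : A) : φ (iβ a b c e) = iβ (φ a) (φ b) (φ c) (φ e) := by
  simp [iβ]
@[simp] lemma map_ib (a b c e f : A) :
    φ (ib a b c e f) = ib (φ a) (φ b) (φ c) (φ e) (φ f) := by simp [ib]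
@[simp] lemma map_ie (a b c e f : A) :
    φ (ie a b c e f) = ie (φ a) (φ b) (φ c) (φ e) (φ f) := by simp [ie]
@[simp] lemma map_cc (a t y α β b e : A) :
    φ (cc a t y α β b e) = cc (φ a) (φ t) (φ y) (φ α) (φ β) (φ b) (φ e) := by
  simp [cc, map_ofNat]
@[simp] lemma map_ic (a b c e f : A) :
    φ (ic a b c e f) = ic (φ a) (φ b) (φ c) (φ e) (φ f) := by simp [ic]

end map

section ids
variable {A : Type*} [CommRing A]

lemma c_rel (a b c e : A) : a * cy a b c e = cz a b c e ^ 2 + ct a b c ^ 3 := by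
  simp only [cy, cz, ct]; ring

lemma tF_mul {a t z y : A} (h : a * y = z ^ 2 + t ^ 3) :
    tF a t z y * y = (z + y ^ 3) ^ 2 + (t - y ^ 2) ^ 3 := by
  simp only [tF]; linear_combination h

lemma tF_sq {a t z y : A} (h : a * y = z ^ 2 + t ^ 3) :
    tα a t z y * a + tβ a t z y * t = tF a t z y ^ 2 := by
  simp only [tα, tβ, tF]; linear_combination 4 * y ^ 4 * h

lemma cF_mul (a b c e : A) : cF a b c e * cy a b c e = cs1 a b c e ^ 2 + cs2 a b c e ^ 3 :=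
  tF_mul (c_rel a b c e)

lemma cF_sq (a b c e : A) : cα a b c e * a + cβ a b c e * ct a b c = cF a b c e ^ 2 :=
  tF_sq (c_rel a b c e)

lemma cF_b (a b c e : A) : cF a b c e ^ 2 * b = a * cs3 a b c e - cβ a b c e * cz a b c e := by
  rw [← cF_sq, cs3, cz]; ring

lemma cF_e (a b c e : A) :
    cF a b c e ^ 2 * e = ct a b c * cs3 a b c e + cα a b c e * cz a b c e := by
  rw [← cF_sq, cs3, cz]; ring

lemma cF_c (a b c e : A) :
    cF a b c e ^ 4 * c = cc a (ct a b c) (cy a b c e) (cα a b c e) (cβ a b c e) b e := by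
  have : cF a b c e ^ 4 = (cF a b c e ^ 2) ^ 2 := by ring
  rw [this, ← cF_sq, cc, cy]
  generalize cα a b c e = α
  generalize cβ a b c e = β
  simp only [ct]; ring

variable {l m s₁ s₂ s₃ : A}

lemma i_F : tF (ia l m s₁ s₂) (it m s₁ s₂) (iz m s₁ s₂) (iy m s₁ s₂) = l := by
  rw [tF, ia]; ring

lemma i_rel (hl : l * m = 1) :
    ia l m s₁ s₂ * iy m s₁ s₂ = iz m s₁ s₂ ^ 2 + it m s₁ s₂ ^ 3 := by
  have h : l * iy m s₁ s₂ = s₁ ^ 2 + s₂ ^ 3 := by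
    rw [iy]; linear_combination (s₁ ^ 2 + s₂ ^ 3) * hl
  rw [ia, iz, it]
  linear_combination h

lemma i_sq (hl : l * m = 1) :
    m ^ 2 * iα l m s₁ s₂ * ia l m s₁ s₂ + m ^ 2 * iβ l m s₁ s₂ * it m s₁ s₂ = 1 := by
  have h := tF_sq (i_rel (s₁ := s₁) (s₂ := s₂) hl)
  rw [i_F] at h
  rw [iα, iβ]
  linear_combination m ^ 2 * h + (l * m + 1) * hl

lemma torsor {a t z y α β σ : A} (h : a * y = z ^ 2 + t ^ 3) (h1 : α * a + β * t = 1) :
    a * cc a t y α β (a * σ - β * z) (t * σ + α * z) - (a * σ - β * z) ^ 2 = t ∧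
    a * (t * σ + α * z) - t * (a * σ - β * z) = z ∧
    a * (t * σ + α * z) ^ 2 - 2 * (a * σ - β * z) * t * (t * σ + α * z) +
      cc a t y α β (a * σ - β * z) (t * σ + α * z) * t ^ 2 = y ∧
    α * (a * σ - β * z) + β * (t * σ + α * z) = σ := by
  have h2 : a * (t * σ + α * z) - t * (a * σ - β * z) = z := by linear_combination z * h1
  have h4 : α * (a * σ - β * z) + β * (t * σ + α * z) = σ := by linear_combination σ * h1
  generalize a * σ - β * z = b at *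
  generalize t * σ + α * z = e at *
  have h5 : a * (y - a * e ^ 2 + 2 * b * t * e) = t ^ 2 * (t + b ^ 2) := by
    linear_combination h - (z + a * e - t * b) * h2
  refine ⟨?_, h2, ?_, h4⟩
  · rw [cc]
    linear_combination β ^ 2 * h5 + (t + b ^ 2) * (α * a + β * t + 1) * h1
  · rw [cc]
    linear_combination -(α ^ 2 * a + 2 * α * β * t) * h5 +
      (y - a * e ^ 2 + 2 * b * t * e) * (α * a + β * t + 1) * h1

lemma i_all (hl : l * m = 1) :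
    ct (ia l m s₁ s₂) (ib l m s₁ s₂ s₃) (ic l m s₁ s₂ s₃) = it m s₁ s₂ ∧
    cz (ia l m s₁ s₂) (ib l m s₁ s₂ s₃) (ic l m s₁ s₂ s₃) (ie l m s₁ s₂ s₃) = iz m s₁ s₂ ∧
    cy (ia l m s₁ s₂) (ib l m s₁ s₂ s₃) (ic l m s₁ s₂ s₃) (ie l m s₁ s₂ s₃) = iy m s₁ s₂ ∧
    iα l m s₁ s₂ * ib l m s₁ s₂ s₃ + iβ l m s₁ s₂ * ie l m s₁ s₂ s₃ = s₃ := by
  obtain ⟨h1, h2, h3, h4⟩ := torsor (σ := m ^ 2 * s₃) (i_rel (s₁ := s₁) (s₂ := s₂) hl) (i_sq hl)
  have eb : ia l m s₁ s₂ * (m ^ 2 * s₃) - m ^ 2 * iβ l m s₁ s₂ * iz m s₁ s₂ =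
      ib l m s₁ s₂ s₃ := by rw [ib]; ring
  have ee : it m s₁ s₂ * (m ^ 2 * s₃) + m ^ 2 * iα l m s₁ s₂ * iz m s₁ s₂ =
      ie l m s₁ s₂ s₃ := by rw [ie]; ring
  rw [eb, ee] at h1 h2 h3 h4
  have ec : cc (ia l m s₁ s₂) (it m s₁ s₂) (iy m s₁ s₂) (m ^ 2 * iα l m s₁ s₂)
      (m ^ 2 * iβ l m s₁ s₂) (ib l m s₁ s₂ s₃) (ie l m s₁ s₂ s₃) = ic l m s₁ s₂ s₃ := by
    rw [ic, cc, cc]; ring
  rw [ec] at h1 h3
  have g1 : ct (ia l m s₁ s₂) (ib l m s₁ s₂ s₃) (ic l m s₁ s₂ s₃) = it m s₁ s₂ := h1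
  refine ⟨g1, ?_, ?_, ?_⟩
  · rw [cz, g1]; exact h2
  · rw [cy, g1]; exact h3
  · linear_combination l ^ 2 * h4 + (l * m + 1) *
      (s₃ - (iα l m s₁ s₂ * ib l m s₁ s₂ s₃ + iβ l m s₁ s₂ * ie l m s₁ s₂ s₃)) * hl

lemma cF_i (hl : l * m = 1) :
    cF (ia l m s₁ s₂) (ib l m s₁ s₂ s₃) (ic l m s₁ s₂ s₃) (ie l m s₁ s₂ s₃) = l := by
  obtain ⟨h1, h2, h3, -⟩ := i_all (s₁ := s₁) (s₂ := s₂) (s₃ := s₃) hl
  rw [cF, h1, h2, h3, i_F]

lemma cs1_i (hl : l * m = 1) :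
    cs1 (ia l m s₁ s₂) (ib l m s₁ s₂ s₃) (ic l m s₁ s₂ s₃) (ie l m s₁ s₂ s₃) = s₁ := by
  obtain ⟨-, h2, h3, -⟩ := i_all (s₁ := s₁) (s₂ := s₂) (s₃ := s₃) hl
  rw [cs1, h2, h3, iz]; ring

lemma cs2_i (hl : l * m = 1) :
    cs2 (ia l m s₁ s₂) (ib l m s₁ s₂ s₃) (ic l m s₁ s₂ s₃) (ie l m s₁ s₂ s₃) = s₂ := by
  obtain ⟨h1, -, h3, -⟩ := i_all (s₁ := s₁) (s₂ := s₂) (s₃ := s₃) hl
  rw [cs2, h1, h3, it]; ring

lemma cs3_i (hl : l * m = 1) :
    cs3 (ia l m s₁ s₂) (ib l m s₁ s₂ s₃) (ic l m s₁ s₂ s₃) (ie l m s₁ s₂ s₃) = s₃ := by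
  obtain ⟨h1, h2, h3, h4⟩ := i_all (s₁ := s₁) (s₂ := s₂) (s₃ := s₃) hl
  rw [cs3, cα, cβ, h1, h2, h3]
  exact h4

variable {a b c e : A}

lemma i_c (hl : cF a b c e * m = 1) :
    ia (cF a b c e) m (cs1 a b c e) (cs2 a b c e) = a ∧
    ib (cF a b c e) m (cs1 a b c e) (cs2 a b c e) (cs3 a b c e) = b ∧
    ic (cF a b c e) m (cs1 a b c e) (cs2 a b c e) (cs3 a b c e) = c ∧
    ie (cF a b c e) m (cs1 a b c e) (cs2 a b c e) (cs3 a b c e) = e := by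
  have hy : iy m (cs1 a b c e) (cs2 a b c e) = cy a b c e := by
    rw [iy, ← cF_mul]; linear_combination cy a b c e * hl
  have hz : iz m (cs1 a b c e) (cs2 a b c e) = cz a b c e := by rw [iz, hy, cs1]; ring
  have ht : it m (cs1 a b c e) (cs2 a b c e) = ct a b c := by rw [it, hy, cs2]; ring
  have ha : ia (cF a b c e) m (cs1 a b c e) (cs2 a b c e) = a := by
    rw [ia, hy, hz, ht, cF, tF]; ring
  have hα : iα (cF a b c e) m (cs1 a b c e) (cs2 a b c e) = cα a b c e := by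
    rw [iα, ha, hy, hz, ht, cα]
  have hβ : iβ (cF a b c e) m (cs1 a b c e) (cs2 a b c e) = cβ a b c e := by
    rw [iβ, ha, hy, hz, ht, cβ]
  have hb : ib (cF a b c e) m (cs1 a b c e) (cs2 a b c e) (cs3 a b c e) = b := by
    rw [ib, ha, hβ, hz, ← cF_b]; linear_combination (cF a b c e * m + 1) * b * hl
  have he : ie (cF a b c e) m (cs1 a b c e) (cs2 a b c e) (cs3 a b c e) = e := by
    rw [ie, ht, hα, hz, ← cF_e]; linear_combination (cF a b c e * m + 1) * e * hl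
  refine ⟨ha, hb, ?_, he⟩
  rw [ic, ha, ht, hy, hα, hβ, hb, he, ← cF_c]
  linear_combination (cF a b c e * m + 1) * ((cF a b c e * m) ^ 2 + 1) * c * hl

end ids

/-- At a point above `(2, 1, 1, 0)` every derivative of `cF` vanishes. -/
lemma crit {A : Type*} [CommRing A] [Algebra ℂ A] (D : Derivation ℂ A A) (ev : A →+* ℂ)
    (a b c e : A) (ha : ev a = 2) (hb : ev b = 1) (hc : ev c = 1) (he : ev e = 0) :
    ev (D (cF a b c e)) = 0 := by
  have h := congrArg (fun p => ev (D p)) (cF_mul a b c e)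
  have h1 : ev (cF a b c e) = 0 := by
    rw [map_cF, ha, hb, hc, he]; norm_num [cF, tF, ct, cz, cy]
  have h2 : ev (cy a b c e) = 1 := by
    rw [map_cy, ha, hb, hc, he]; norm_num [ct, cy]
  have h3 : ev (cs1 a b c e) = 0 := by
    rw [map_cs1, ha, hb, hc, he]; norm_num [cs1, ct, cz, cy]
  have h4 : ev (cs2 a b c e) = 0 := by
    rw [map_cs2, ha, hb, hc, he]; norm_num [cs2, ct, cy]
  simp only [Derivation.leibniz, Derivation.leibniz_pow, map_add, smul_eq_mul, map_mul,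
    nsmul_eq_mul, map_pow, h1, h2, h3, h4] at h
  simpa using h

open MvPolynomial

noncomputable def F409 : B4 := cF (X 0) (X 1) (X 2) (X 3)

lemma no_coord {σ : Type*} (g : MvPolynomial σ ℂ) (ev : MvPolynomial σ ℂ →+* ℂ)
    (h : ∀ D : Der (MvPolynomial σ ℂ), ev (D g) = 0) (i : σ) :
    ¬ ∃ τ : MvPolynomial σ ℂ ≃ₐ[ℂ] MvPolynomial σ ℂ, τ g = X i := by
  rintro ⟨τ, hτ⟩
  have := h (conj τ (pderiv i))
  rw [conj_apply, hτ, pderiv_X_self, map_one, map_one] at this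
  exact one_ne_zero this

theorem F409_fibre :
    Nonempty ((B4 ⧸ Ideal.span {F409 - 1}) ≃ₐ[ℂ] MvPolynomial (Fin 3) ℂ) := by
  set mk := Ideal.Quotient.mkₐ ℂ (Ideal.span {F409 - 1}) with hmk
  have hf : cF (mk (X 0)) (mk (X 1)) (mk (X 2)) (mk (X 3)) = 1 := by
    have : mk (F409 - 1) = 0 :=
      Ideal.Quotient.eq_zero_iff_mem.2 (Ideal.mem_span_singleton_self _)
    rw [map_sub, sub_eq_zero, map_one] at this
    rw [← map_cF]
    exact this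
  have hl : (1 : MvPolynomial (Fin 3) ℂ) * 1 = 1 := one_mul 1
  refine quot_equiv _ ![cs1 (X 0) (X 1) (X 2) (X 3), cs2 (X 0) (X 1) (X 2) (X 3),
    cs3 (X 0) (X 1) (X 2) (X 3)] ![ia 1 1 (X 0) (X 1), ib 1 1 (X 0) (X 1) (X 2),
      ic 1 1 (X 0) (X 1) (X 2), ie 1 1 (X 0) (X 1) (X 2)] ?_ ?_ ?_
  · simp [F409, cF_i hl]
  · intro j
    fin_cases j <;> simp [cs1_i hl, cs2_i hl, cs3_i hl]
  · intro i
    obtain ⟨h1, h2, h3, h4⟩ := i_c (m := 1) (hf.symm ▸ one_mul 1 :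
      cF (mk (X 0)) (mk (X 1)) (mk (X 2)) (mk (X 3)) * 1 = 1)
    rw [hf] at h1 h2 h3 h4
    rw [← hmk]
    fin_cases i
    · simpa only [Fin.zero_eta, Matrix.cons_val_zero, map_ia, map_one, aeval_X,
        Matrix.cons_val_one, map_cs1, map_cs2] using h1
    · simpa only [Fin.mk_one, Matrix.cons_val_zero, map_ib, map_one, aeval_X,
        Matrix.cons_val_one, Matrix.cons_val, map_cs1, map_cs2, map_cs3] using h2
    · simpa only [Fin.reduceFinMk, Matrix.cons_val_zero, map_ic, map_one, aeval_X,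
        Matrix.cons_val_one, Matrix.cons_val, map_cs1, map_cs2, map_cs3] using h3
    · simpa only [Fin.reduceFinMk, Matrix.cons_val_zero, map_ie, map_one, aeval_X,
        Matrix.cons_val_one, Matrix.cons_val, map_cs1, map_cs2, map_cs3] using h4

lemma F409_crit (D : Der B4) : eval ![2, 1, 1, 0] (D (F409 - 1)) = 0 := by
  rw [map_sub, Derivation.map_one_eq_zero, sub_zero]
  exact crit D _ _ _ _ _ (by simp) (by simp) (by simp) (by simp)

end Crest.Agent.R268
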