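import Mathlib

/-! Polynomial identities for the degree five polynomial of row 268 (statement S0408). -/

set_option autoImplicit false

namespace Crest.Agent.R268

section defs
variable {A : Type*} [CommRing A]

def bQ (a b u d : A) : A := a * d + b * (b - u)
def bv (a b u d : A) : A := a * u + bQ a b u d * b
def bf (a b u d : A) : A := a - bQ a b u d * bv a b u d
def bw (a b u d : A) : A := bv a b u d * u + b
def bh (a b u d : A) : A := u + a * u ^ 2 + u * (2 * b - u) * bQ a b u d - d * bQ a b u d ^ 2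
def bY (a b u d : A) : A := d * (1 + u * bQ a b u d) - u ^ 2 * (b - u)
def bg (a b u d : A) : A := -bw a b u d - bv a b u d * bh a b u d - bQ a b u d ^ 2

def mQ (x w h Y : A) : A := w * (w - h) + x * Y
def mv (x w h u Y : A) : A := mQ x w h Y * w + x * u
def mg (x w h u Y : A) : A := -w - mv x w h u Y * h - mQ x w h Y ^ 2
def mH (x w h u Y : A) : A := u * (1 + mQ x w h Y * (2 * w - h) + x * u) - mQ x w h Y ^ 2 * Y - h
def ma (x w h u Y : A) : A := x + mQ x w h Y * mv x w h u Y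
def mb (x w h u Y : A) : A := w - mv x w h u Y * u
def md (x w h u Y : A) : A :=
  (1 - u * mQ x w h Y) * (Y + u ^ 2 * (mb x w h u Y - u)) +
    u ^ 2 * (u + ma x w h u Y * u ^ 2 + u * (2 * mb x w h u Y - u) * mQ x w h Y - h)

/-- The quadric. -/
def Phi (Q v g : A) : A := Q * g + v * (v + 1)

end defs

section map
variable {A B F : Type*} [CommRing A] [CommRing B] [FunLike F A B] [RingHomClass F A B] (φ : F)

@[simp] lemma map_bQ (a b u d : A) : φ (bQ a b u d) = bQ (φ a) (φ b) (φ u) (φ d) := by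
  simp [bQ]
@[simp] lemma map_bv (a b u d : A) : φ (bv a b u d) = bv (φ a) (φ b) (φ u) (φ d) := by
  simp [bv]
@[simp] lemma map_bf (a b u d : A) : φ (bf a b u d) = bf (φ a) (φ b) (φ u) (φ d) := by
  simp [bf]
@[simp] lemma map_bw (a b u d : A) : φ (bw a b u d) = bw (φ a) (φ b) (φ u) (φ d) := by
  simp [bw]
@[simp] lemma map_bh (a b u d : A) : φ (bh a b u d) = bh (φ a) (φ b) (φ u) (φ d) := by
  simp [bh, map_ofNat]
@[simp] lemma map_bY (a b u d : A) : φ (bY a b u d) = bY (φ a) (φ b) (φ u) (φ d) := by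
  simp [bY]
@[simp] lemma map_bg (a b u d : A) : φ (bg a b u d) = bg (φ a) (φ b) (φ u) (φ d) := by
  simp [bg]
@[simp] lemma map_mQ (x w h Y : A) : φ (mQ x w h Y) = mQ (φ x) (φ w) (φ h) (φ Y) := by
  simp [mQ]
@[simp] lemma map_mv (x w h u Y : A) :
    φ (mv x w h u Y) = mv (φ x) (φ w) (φ h) (φ u) (φ Y) := by simp [mv]
@[simp] lemma map_mg (x w h u Y : A) :
    φ (mg x w h u Y) = mg (φ x) (φ w) (φ h) (φ u) (φ Y) := by simp [mg]
@[simp] lemma map_mH (x w h u Y : A) :
    φ (mH x w h u Y) = mH (φ x) (φ w) (φ h) (φ u) (φ Y) := by simp [mH, map_ofNat]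
@[simp] lemma map_ma (x w h u Y : A) :
    φ (ma x w h u Y) = ma (φ x) (φ w) (φ h) (φ u) (φ Y) := by simp [ma]
@[simp] lemma map_mb (x w h u Y : A) :
    φ (mb x w h u Y) = mb (φ x) (φ w) (φ h) (φ u) (φ Y) := by simp [mb]
@[simp] lemma map_md (x w h u Y : A) :
    φ (md x w h u Y) = md (φ x) (φ w) (φ h) (φ u) (φ Y) := by simp [md, map_ofNat]
@[simp] lemma map_Phi (Q v g : A) : φ (Phi Q v g) = Phi (φ Q) (φ v) (φ g) := by simp [Phi]

end map

section ids
variable {A : Type*} [CommRing A]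

lemma bf_mul_u (a b u d : A) : bf a b u d * u = bv a b u d - bQ a b u d * bw a b u d := by
  simp only [bf, bw, bv]; ring

lemma bf_mul_h (a b u d : A) :
    bf a b u d * bh a b u d = Phi (bQ a b u d) (bv a b u d) (bg a b u d) := by
  simp only [Phi, bg, bf, bw, bh, bv, bQ]; ring

lemma bf_mul_Y (a b u d : A) :
    bf a b u d * bY a b u d = bQ a b u d - bw a b u d * (bw a b u d - bh a b u d) := by
  simp only [bY, bf, bw, bh, bv, bQ]; ring

lemma mQ_b (a b u d : A) :
    mQ (bf a b u d) (bw a b u d) (bh a b u d) (bY a b u d) = bQ a b u d := by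
  rw [mQ, bf_mul_Y]; ring

lemma mv_b (a b u d : A) :
    mv (bf a b u d) (bw a b u d) (bh a b u d) u (bY a b u d) = bv a b u d := by
  rw [mv, mQ_b, bf_mul_u]; ring

lemma mg_b (a b u d : A) :
    mg (bf a b u d) (bw a b u d) (bh a b u d) u (bY a b u d) = bg a b u d := by
  rw [mg, mQ_b, mv_b, bg]

lemma ma_b (a b u d : A) :
    ma (bf a b u d) (bw a b u d) (bh a b u d) u (bY a b u d) = a := by
  rw [ma, mQ_b, mv_b, bf]; ring

lemma mb_b (a b u d : A) :
    mb (bf a b u d) (bw a b u d) (bh a b u d) u (bY a b u d) = b := by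
  rw [mb, mv_b, bw]; ring

lemma md_b (a b u d : A) :
    md (bf a b u d) (bw a b u d) (bh a b u d) u (bY a b u d) = d := by
  rw [md, ma_b, mb_b, mQ_b, bY, bh]; ring

lemma mH_b (a b u d : A) :
    mH (bf a b u d) (bw a b u d) (bh a b u d) u (bY a b u d) = 0 := by
  rw [mH, mQ_b]
  simp only [bY, bf, bw, bh, bv, bQ]; ring

lemma mul_mH (x w h u Y : A) :
    x * mH x w h u Y = Phi (mQ x w h Y) (mv x w h u Y) (mg x w h u Y) - x * h := by
  simp only [Phi, mH, mg, mv, mQ]; ring

variable {x w h u Y : A}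

lemma bQ_m (H : mH x w h u Y = 0) :
    bQ (ma x w h u Y) (mb x w h u Y) u (md x w h u Y) = mQ x w h Y := by
  have : bQ (ma x w h u Y) (mb x w h u Y) u (md x w h u Y) - mQ x w h Y =
      -mb x w h u Y * mH x w h u Y := by
    simp only [bQ, md, ma, mb, mH, mv, mQ]; ring
  rw [H] at this
  linear_combination this

lemma bv_m (H : mH x w h u Y = 0) :
    bv (ma x w h u Y) (mb x w h u Y) u (md x w h u Y) = mv x w h u Y := by
  rw [bv, bQ_m H, ma, mb]
  simp only [mv]; ring

lemma bf_m (H : mH x w h u Y = 0) :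
    bf (ma x w h u Y) (mb x w h u Y) u (md x w h u Y) = x := by
  rw [bf, bQ_m H, bv_m H, ma]; ring

lemma bw_m (H : mH x w h u Y = 0) :
    bw (ma x w h u Y) (mb x w h u Y) u (md x w h u Y) = w := by
  rw [bw, bv_m H, mb]; ring

lemma bh_m (H : mH x w h u Y = 0) :
    bh (ma x w h u Y) (mb x w h u Y) u (md x w h u Y) = h := by
  rw [bh, bQ_m H]
  have : u + ma x w h u Y * u ^ 2 + u * (2 * mb x w h u Y - u) * mQ x w h Y -
      md x w h u Y * mQ x w h Y ^ 2 - h = (1 - u * mQ x w h Y) * mH x w h u Y := by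
    simp only [md, ma, mb, mH, mv, mQ]; ring
  rw [H] at this
  linear_combination this

lemma bY_m (H : mH x w h u Y = 0) :
    bY (ma x w h u Y) (mb x w h u Y) u (md x w h u Y) = Y := by
  rw [bY, bQ_m H]
  have : md x w h u Y * (1 + u * mQ x w h Y) - u ^ 2 * (mb x w h u Y - u) - Y =
      u ^ 2 * mH x w h u Y := by
    simp only [md, ma, mb, mH, mv, mQ]; ring
  rw [H] at this
  linear_combination this

lemma bg_m (H : mH x w h u Y = 0) :
    bg (ma x w h u Y) (mb x w h u Y) u (md x w h u Y) = mg x w h u Y := by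
  rw [bg, bw_m H, bv_m H, bh_m H, bQ_m H, mg]

end ids

/-! The flow fixing `x, Q, v, g` and translating `h`. -/
section flow
variable {A : Type*} [CommRing A]

def fw (x w h u Y t : A) : A := w - mv x w h u Y * x * t
def fh (x h t : A) : A := h + x * t
def fu (x w h u Y t : A) : A := u + mQ x w h Y * mv x w h u Y * t
def fY (x w h u Y t : A) : A :=
  Y + t * ((2 * mv x w h u Y + 1) * w - mv x w h u Y * h) -
    mv x w h u Y * (mv x w h u Y + 1) * x * t ^ 2

lemma mQ_f (x w h u Y t : A) :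
    mQ x (fw x w h u Y t) (fh x h t) (fY x w h u Y t) = mQ x w h Y := by
  simp only [fw, fh, fY]
  generalize mv x w h u Y = v
  simp only [mQ]; ring

lemma mv_f (x w h u Y t : A) :
    mv x (fw x w h u Y t) (fh x h t) (fu x w h u Y t) (fY x w h u Y t) = mv x w h u Y := by
  rw [mv, mQ_f, fw, fu]
  nth_rewrite 3 [mv]
  ring

lemma mH_f (x w h u Y t : A) :
    mH x (fw x w h u Y t) (fh x h t) (fu x w h u Y t) (fY x w h u Y t) =
      mH x w h u Y - x * t := by
  rw [mH, mQ_f]
  simp only [fw, fh, fu, fY, mH, mv]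
  generalize mQ x w h Y = Q
  ring

lemma fw_f (x w h u Y t : A) :
    fw x (fw x w h u Y t) (fh x h t) (fu x w h u Y t) (fY x w h u Y t) (-t) = w := by
  rw [fw, mv_f, fw]; ring

lemma fh_f (x h t : A) : fh x (fh x h t) (-t) = h := by
  simp only [fh]; ring

lemma fu_f (x w h u Y t : A) :
    fu x (fw x w h u Y t) (fh x h t) (fu x w h u Y t) (fY x w h u Y t) (-t) = u := by
  rw [fu, mv_f, mQ_f, fu]; ring

lemma fY_f (x w h u Y t : A) :
    fY x (fw x w h u Y t) (fh x h t) (fu x w h u Y t) (fY x w h u Y t) (-t) = Y := by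
  rw [fY, mv_f, fY, fw, fh]; ring

/-- `mH = mH at x = 0` plus `x * mH1`. -/
def mH1 (x w h u Y : A) : A :=
  u * (Y * (2 * w - h) + u) - Y ^ 2 * (2 * (w * (w - h)) + x * Y)

def sn (w h : A) : A := w * (w - h) * (2 * w - h)
def sU (w h u Y : A) : A := (1 + sn w h) * u - (w * (w - h)) ^ 2 * Y
def sV (w h u Y : A) : A := (2 * w - h) ^ 2 * u + (1 - sn w h) * Y
def su (w h U V : A) : A := (1 - sn w h) * U + (w * (w - h)) ^ 2 * V
def sY (w h U V : A) : A := -(2 * w - h) ^ 2 * U + (1 + sn w h) * V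

lemma mH_eq (x w h u Y : A) : mH x w h u Y = sU w h u Y - h + x * mH1 x w h u Y := by
  simp only [mH, sU, sn, mH1, mQ]; ring

lemma su_s (w h u Y : A) : su w h (sU w h u Y) (sV w h u Y) = u := by
  simp only [su, sU, sV, sn]; ring
lemma sY_s (w h u Y : A) : sY w h (sU w h u Y) (sV w h u Y) = Y := by
  simp only [sY, sU, sV, sn]; ring
lemma sU_s (w h U V : A) : sU w h (su w h U V) (sY w h U V) = U := by
  simp only [su, sU, sY, sn]; ring
lemma sV_s (w h U V : A) : sV w h (su w h U V) (sY w h U V) = V := by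
  simp only [su, sV, sY, sn]; ring

end flow

section map2
variable {A B F : Type*} [CommRing A] [CommRing B] [FunLike F A B] [RingHomClass F A B] (φ : F)

@[simp] lemma map_fw (x w h u Y t : A) :
    φ (fw x w h u Y t) = fw (φ x) (φ w) (φ h) (φ u) (φ Y) (φ t) := by simp [fw]
@[simp] lemma map_fh (x h t : A) : φ (fh x h t) = fh (φ x) (φ h) (φ t) := by simp [fh]
@[simp] lemma map_fu (x w h u Y t : A) :
    φ (fu x w h u Y t) = fu (φ x) (φ w) (φ h) (φ u) (φ Y) (φ t) := by simp [fu]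
@[simp] lemma map_fY (x w h u Y t : A) :
    φ (fY x w h u Y t) = fY (φ x) (φ w) (φ h) (φ u) (φ Y) (φ t) := by simp [fY, map_ofNat]
@[simp] lemma map_mH1 (x w h u Y : A) :
    φ (mH1 x w h u Y) = mH1 (φ x) (φ w) (φ h) (φ u) (φ Y) := by simp [mH1, map_ofNat]
@[simp] lemma map_sn (w h : A) : φ (sn w h) = sn (φ w) (φ h) := by simp [sn, map_ofNat]
@[simp] lemma map_sU (w h u Y : A) : φ (sU w h u Y) = sU (φ w) (φ h) (φ u) (φ Y) := by
  simp [sU]
@[simp] lemma map_sV (w h u Y : A) : φ (sV w h u Y) = sV (φ w) (φ h) (φ u) (φ Y) := by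
  simp [sV, map_ofNat]
@[simp] lemma map_su (w h u Y : A) : φ (su w h u Y) = su (φ w) (φ h) (φ u) (φ Y) := by
  simp [su]
@[simp] lemma map_sY (w h u Y : A) : φ (sY w h u Y) = sY (φ w) (φ h) (φ u) (φ Y) := by
  simp [sY, map_ofNat]

end map2

end Crest.Agent.R268
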