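import Mathlib

/-! General facts on locally nilpotent derivations used for row 268. -/

set_option autoImplicit false

namespace Crest.Agent.R268

open Polynomial

section basic
variable {A B : Type*} [CommRing A] [Algebra ℂ A] [CommRing B] [Algebra ℂ B]

/-- Derivations of a `ℂ`-algebra. -/
abbrev Der (A : Type*) [CommRing A] [Algebra ℂ A] := Derivation ℂ A A

/-- Local nilpotency. -/
def LN (D : Derivation ℂ A A) : Prop := ∀ a, ∃ k : ℕ, D^[k] a = 0

lemma iter_zero (D : Derivation ℂ A A) (n : ℕ) : D^[n] 0 = 0 := by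
  induction n with
  | zero => rfl
  | succ n ih => rw [Function.iterate_succ_apply', ih, map_zero]

lemma iter_add (D : Derivation ℂ A A) (n : ℕ) (a b : A) : D^[n] (a + b) = D^[n] a + D^[n] b := by
  induction n with
  | zero => rfl
  | succ n ih => simp only [Function.iterate_succ_apply', ih, map_add]

lemma iter_of_le (D : Derivation ℂ A A) {k n : ℕ} (h : k ≤ n) {a : A} (ha : D^[k] a = 0) :
    D^[n] a = 0 := by
  obtain ⟨m, rfl⟩ := Nat.exists_eq_add_of_le' h
  rw [Function.iterate_add_apply, ha, iter_zero]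

lemma iter_mul (D : Derivation ℂ A A) (n : ℕ) (a b : A) :
    D^[n] (a * b) = ∑ ij ∈ Finset.HasAntidiagonal.antidiagonal n, n.choose ij.1 • (D^[ij.1] a * D^[ij.2] b) := by
  induction n with
  | zero => simp
  | succ n ih =>
    rw [Finset.sum_antidiagonal_choose_succ_nsmul (M := A) (fun i j => D^[i] a * D^[j] b) n]
    simp only [Function.iterate_succ_apply', ih, map_sum, map_nsmul, Derivation.leibniz,
      smul_eq_mul, smul_add, Finset.sum_add_distrib]
    congr 1
    refine Finset.sum_congr rfl fun ⟨i, j⟩ hij ↦ ?_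
    rw [n.choose_symm_of_eq_add (Finset.HasAntidiagonal.mem_antidiagonal.1 hij).symm, mul_comm]

lemma iter_const_mul (D : Derivation ℂ A A) {c : A} (hc : D c = 0) (n : ℕ) (a : A) :
    D^[n] (c * a) = c * D^[n] a := by
  induction n with
  | zero => rfl
  | succ n ih => simp [Function.iterate_succ_apply', ih, hc]

/-- The exponential of a locally nilpotent derivation. -/
theorem exists_exp (D : Derivation ℂ A A) (hD : LN D) :
    ∃ E : A →+* A[X], ∀ a n, (E a).coeff n = ((n.factorial : ℂ)⁻¹) • D^[n] a := by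
  classical
  choose k hk using hD
  let e : A → A[X] := fun a =>
    ∑ n ∈ Finset.range (k a), monomial n (((n.factorial : ℂ)⁻¹) • D^[n] a)
  have he : ∀ a n, (e a).coeff n = ((n.factorial : ℂ)⁻¹) • D^[n] a := by
    intro a n
    simp only [e, finsetSum_coeff, coeff_monomial]
    rw [Finset.sum_ite_eq']
    split_ifs with h
    · rfl
    · rw [iter_of_le D (by simpa using h) (hk a), smul_zero]
  refine ⟨{ toFun := e, map_one' := ?_, map_mul' := ?_, map_zero' := ?_, map_add' := ?_ }, he⟩
  · ext n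
    rw [he, coeff_one]
    cases n with
    | zero => simp
    | succ n => simp [Function.iterate_succ_apply, iter_zero]
  · intro a b
    ext n
    rw [he, coeff_mul, iter_mul, Finset.smul_sum]
    refine Finset.sum_congr rfl fun ⟨i, j⟩ hij ↦ ?_
    have hij' : i + j = n := Finset.HasAntidiagonal.mem_antidiagonal.1 hij
    simp only [he]
    rw [smul_mul_smul_comm, ← Nat.cast_smul_eq_nsmul ℂ, smul_smul]
    congr 1
    have h1 : (n.choose i : ℂ) * i.factorial * j.factorial = n.factorial := by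
      have := Nat.add_choose_mul_factorial_mul_factorial j i
      rw [add_comm j i, hij'] at this
      rw [← this]; push_cast; ring
    have hi : (i.factorial : ℂ) ≠ 0 := by exact_mod_cast i.factorial_ne_zero
    have hj : (j.factorial : ℂ) ≠ 0 := by exact_mod_cast j.factorial_ne_zero
    have hn : (n.factorial : ℂ) ≠ 0 := by exact_mod_cast n.factorial_ne_zero
    field_simp
    rw [← h1]
  · ext n; simp [he, iter_zero]
  · intro a b; ext n; simp [he, iter_add]

/-- Conjugating a derivation by an algebra isomorphism. -/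
noncomputable def conj (e : A ≃ₐ[ℂ] B) (D : Derivation ℂ B B) : Derivation ℂ A A :=
  Derivation.mk' (e.symm.toLinearMap ∘ₗ (D : B →ₗ[ℂ] B) ∘ₗ e.toLinearMap) (by
    intro a b
    simp [map_mul, Derivation.leibniz])

@[simp] lemma conj_apply (e : A ≃ₐ[ℂ] B) (D : Derivation ℂ B B) (a : A) :
    conj e D a = e.symm (D (e a)) := rfl

lemma conj_LN (e : A ≃ₐ[ℂ] B) (D : Derivation ℂ B B) (hD : LN D) : LN (conj e D) := by
  intro a
  obtain ⟨k, hk⟩ := hD (e a)
  refine ⟨k, ?_⟩
  have : ∀ n a, (conj e D)^[n] a = e.symm (D^[n] (e a)) := by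
    intro n
    induction n with
    | zero => simp
    | succ n ih => intro a; simp [Function.iterate_succ_apply', ih]
  rw [this, hk, map_zero]

lemma LN_of_adjoin (D : Derivation ℂ A A) (s : Set A) (hs : Algebra.adjoin ℂ s = ⊤)
    (h : ∀ a ∈ s, ∃ k : ℕ, D^[k] a = 0) : LN D := by
  intro a
  have ha : a ∈ Algebra.adjoin ℂ s := hs ▸ Algebra.mem_top
  induction ha using Algebra.adjoin_induction with
  | mem x hx => exact h x hx
  | algebraMap r => exact ⟨1, by simp⟩
  | add x y _ _ hx hy =>
    obtain ⟨k, hk⟩ := hx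
    obtain ⟨l, hl⟩ := hy
    exact ⟨k + l, by rw [iter_add, iter_of_le D (by omega) hk, iter_of_le D (by omega) hl, add_zero]⟩
  | mul x y _ _ hx hy =>
    obtain ⟨k, hk⟩ := hx
    obtain ⟨l, hl⟩ := hy
    refine ⟨k + l, ?_⟩
    rw [iter_mul]
    refine Finset.sum_eq_zero fun ⟨i, j⟩ hij => ?_
    have hij' : i + j = k + l := Finset.HasAntidiagonal.mem_antidiagonal.1 hij
    by_cases hi : k ≤ i
    · simp [iter_of_le D hi hk]
    · simp [iter_of_le D (show l ≤ j by omega) hl]

lemma LN_pderiv {σ : Type*} {k : Type*} [CommRing k] [Algebra ℂ k] (i : σ) :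
    LN ((MvPolynomial.pderiv i : Derivation k (MvPolynomial σ k) _).restrictScalars ℂ) := by
  classical
  refine LN_of_adjoin _ (Set.range MvPolynomial.C ∪ Set.range MvPolynomial.X) ?_ ?_
  · rw [eq_top_iff]
    intro p _
    induction p using MvPolynomial.induction_on with
    | C a => exact Algebra.subset_adjoin (Or.inl ⟨a, rfl⟩)
    | add p q hp hq => exact add_mem (hp trivial) (hq trivial)
    | mul_X p n hp => exact mul_mem (hp trivial) (Algebra.subset_adjoin (Or.inr ⟨n, rfl⟩))
  · rintro a (⟨c, rfl⟩ | ⟨j, rfl⟩)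
    · exact ⟨1, by simp⟩
    · refine ⟨2, ?_⟩
      simp only [Function.iterate_succ_apply', Function.iterate_zero, id,
        Derivation.restrictScalars_apply, MvPolynomial.pderiv_X]
      by_cases h : j = i <;> simp [Pi.single_apply, h]

end basic

section red
variable {P B R : Type*} [CommRing P] [Algebra ℂ P] [CommRing B] [Algebra ℂ B]
  [CommRing R] [Algebra ℂ R]

/-- Rescale a locally nilpotent derivation by a power of an invariant `x` and reduce it
modulo `x`. -/
theorem reduce_LND [IsDomain B] [Algebra.FiniteType ℂ P] (π : P →ₐ[ℂ] B) (κ : P →ₐ[ℂ] R)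
    (hκ : Function.Surjective κ) (x₀ : P) (hx : π x₀ ≠ 0)
    (h1 : ∀ b, ∃ N p, π x₀ ^ N * b = π p)
    (h2 : ∀ p, κ p = 0 ↔ ∃ q, π p = π x₀ * π q)
    (h3 : ∀ b, (∀ n, π x₀ ^ n ∣ b) → b = 0)
    (D : Derivation ℂ B B) (hD : LN D) (hDx : D (π x₀) = 0) (hD0 : D ≠ 0) :
    ∃ δ : Derivation ℂ R R, LN δ ∧ δ ≠ 0 ∧ ∀ p, D (π p) = 0 → δ (κ p) = 0 := by
  classical
  set x := π x₀ with hxdef
  have hDxn : ∀ n, D (x ^ n) = 0 := fun n => by simp [Derivation.leibniz_pow, hDx]
  -- a uniform exponent
  obtain ⟨N, hN⟩ : ∃ N : ℕ, ∀ p, ∃ q, x ^ N * D (π p) = π q := by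
    obtain ⟨s, hs⟩ := (inferInstance : Algebra.FiniteType ℂ P).out
    choose n pn hn using h1
    refine ⟨s.sup fun p => n (D (π p)), fun p => ?_⟩
    have hp : p ∈ Algebra.adjoin ℂ (s : Set P) := hs ▸ Algebra.mem_top
    induction hp using Algebra.adjoin_induction with
    | mem p hp =>
      have hle : n (D (π p)) ≤ s.sup fun p => n (D (π p)) :=
        Finset.le_sup (f := fun p => n (D (π p))) hp
      obtain ⟨m, hm⟩ := Nat.exists_eq_add_of_le' hle
      refine ⟨x₀ ^ m * pn (D (π p)), ?_⟩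
      rw [hm, pow_add, mul_assoc, hn, map_mul, map_pow]
    | algebraMap r => exact ⟨0, by simp⟩
    | add p q _ _ hp hq =>
      obtain ⟨p', hp'⟩ := hp
      obtain ⟨q', hq'⟩ := hq
      exact ⟨p' + q', by rw [map_add, map_add, mul_add, hp', hq', map_add]⟩
    | mul p q _ _ hp hq =>
      obtain ⟨p', hp'⟩ := hp
      obtain ⟨q', hq'⟩ := hq
      refine ⟨p * q' + q * p', ?_⟩
      simp only [map_mul, map_add, Derivation.leibniz, smul_eq_mul, ← hp', ← hq']
      ring
  let S : ℕ → Prop := fun k => ∀ p, ∃ q, x ^ N * D (π p) = x ^ k * π q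
  have hS0 : S 0 := fun p => by simpa using hN p
  have hmono : ∀ k, S (k + 1) → S k := fun k h p => by
    obtain ⟨q, hq⟩ := h p
    exact ⟨x₀ * q, by rw [hq, map_mul]; ring⟩
  have hnot : ∃ k, ¬ S k := by
    by_contra hall
    push Not at hall
    apply hD0
    ext b
    obtain ⟨M, p, hp⟩ := h1 b
    have h4 : x ^ N * D (π p) = 0 := h3 _ fun n => by
      obtain ⟨q, hq⟩ := hall n p
      exact ⟨π q, hq⟩
    have h5 : D (π p) = 0 := (mul_eq_zero.1 h4).resolve_left (pow_ne_zero _ hx)
    rw [← hp, Derivation.leibniz, hDxn, smul_zero, add_zero, smul_eq_mul] at h5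
    simpa using (mul_eq_zero.1 h5).resolve_left (pow_ne_zero _ hx)
  obtain ⟨k, hk, hk1⟩ : ∃ k, S k ∧ ¬ S (k + 1) := by
    have h0 : Nat.find hnot ≠ 0 := fun h => Nat.find_spec hnot (h ▸ hS0)
    obtain ⟨k, hk⟩ := Nat.exists_eq_succ_of_ne_zero h0
    refine ⟨k, ?_, ?_⟩
    · by_contra h
      exact Nat.find_min hnot (m := k) (by omega) h
    · have := Nat.find_spec hnot
      rwa [hk] at this
  choose Q hQ using hk
  have hπκ : ∀ q, π q = 0 → κ q = 0 := fun q hq => (h2 q).2 ⟨0, by simp [hq]⟩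
  -- well-definedness
  have key0 : ∀ p q, κ p = 0 → x ^ N * D (π p) = x ^ k * π q → κ q = 0 := by
    intro p q hp hq
    obtain ⟨r, hr⟩ := (h2 p).1 hp
    refine (h2 q).2 ⟨Q r, ?_⟩
    apply mul_left_cancel₀ (pow_ne_zero k hx)
    rw [← hq, hr, Derivation.leibniz, hDx, smul_zero, add_zero, smul_eq_mul,
      mul_left_comm, hQ r]
    ring
  choose sec hsec using hκ
  let d : R → R := fun y => κ (Q (sec y))
  have key : ∀ p q, x ^ N * D (π p) = x ^ k * π q → d (κ p) = κ q := by
    intro p q hq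
    have := key0 (sec (κ p) - p) (Q (sec (κ p)) - q) (by simp [hsec])
      (by rw [map_sub, map_sub, map_sub, mul_sub, mul_sub, hQ, hq])
    rw [map_sub] at this
    exact sub_eq_zero.1 this
  have hsurj : ∀ y, ∃ p, y = κ p := fun y => ⟨sec y, (hsec y).symm⟩
  let dl : R →ₗ[ℂ] R :=
    { toFun := d
      map_add' := by
        intro y z
        obtain ⟨p, rfl⟩ := hsurj y
        obtain ⟨q, rfl⟩ := hsurj z
        rw [← map_add, key p _ (hQ p), key q _ (hQ q), key (p + q) (Q p + Q q), map_add]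
        rw [map_add, map_add, map_add, mul_add, mul_add, hQ, hQ]
      map_smul' := by
        intro c y
        obtain ⟨p, rfl⟩ := hsurj y
        rw [← map_smul, key p _ (hQ p), key (c • p) (c • Q p), map_smul]
        · rfl
        · rw [map_smul, Derivation.map_smul, map_smul, mul_smul_comm, mul_smul_comm, hQ] }
  let δ : Derivation ℂ R R := Derivation.mk' dl (by
    intro y z
    obtain ⟨p, rfl⟩ := hsurj y
    obtain ⟨q, rfl⟩ := hsurj z
    change d _ = _ • d _ + _ • d _
    rw [← map_mul, key p _ (hQ p), key q _ (hQ q), key (p * q) (p * Q q + q * Q p)]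
    · simp
    · simp only [map_mul, map_add, Derivation.leibniz, smul_eq_mul]
      linear_combination π p * hQ q + π q * hQ p)
  have hδ : ∀ p q, x ^ N * D (π p) = x ^ k * π q → δ (κ p) = κ q := key
  refine ⟨δ, ?_, ?_, ?_⟩
  · intro y
    obtain ⟨p, rfl⟩ := hsurj y
    have : ∀ n, ∃ q, δ^[n] (κ p) = κ q ∧ x ^ (N * n) * D^[n] (π p) = x ^ (k * n) * π q := by
      intro n
      induction n with
      | zero => exact ⟨p, rfl, by simp⟩
      | succ n ih =>
        obtain ⟨q, hq1, hq2⟩ := ih
        refine ⟨Q q, ?_, ?_⟩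
        · rw [Function.iterate_succ_apply', hq1, hδ _ _ (hQ q)]
        · have h6 := congrArg D hq2
          simp only [Derivation.leibniz, hDxn, smul_zero, add_zero, smul_eq_mul] at h6
          rw [Function.iterate_succ_apply']
          have h7 := hQ q
          rw [mul_add, mul_add, pow_add, pow_add, mul_one, mul_one]
          linear_combination x ^ N * h6 + x ^ (k * n) * h7
    obtain ⟨n, hn⟩ := hD (π p)
    obtain ⟨q, hq1, hq2⟩ := this n
    refine ⟨n, ?_⟩
    rw [hn, mul_zero] at hq2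
    rw [hq1, hπκ q ((mul_eq_zero.1 hq2.symm).resolve_left (pow_ne_zero _ hx))]
  · intro h0
    apply hk1
    intro p
    have h8 : κ (Q p) = 0 := by rw [← hδ p _ (hQ p), h0]; rfl
    obtain ⟨q, hq⟩ := (h2 _).1 h8
    exact ⟨q, by rw [hQ, hq]; ring⟩
  · intro p hp
    rw [hδ p 0 (by simp [hp]), map_zero]

end red

end Crest.Agent.R268
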