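import Crest.Agent.R268.Formulas
import Crest.Agent.R268.LND

/-! The coordinate ring of the quadric `Q g + v (v + 1) = 0`. -/

set_option autoImplicit false

namespace Crest.Agent.R268

open Polynomial

/-- The polynomial ring in three variables. -/
def W3 : Type := MvPolynomial (Fin 3) ℂ

noncomputable instance : CommRing W3 := inferInstanceAs (CommRing (MvPolynomial (Fin 3) ℂ))
noncomputable instance : Algebra ℂ W3 := inferInstanceAs (Algebra ℂ (MvPolynomial (Fin 3) ℂ))
instance : IsDomain W3 := inferInstanceAs (IsDomain (MvPolynomial (Fin 3) ℂ))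
instance : Algebra.FiniteType ℂ W3 :=
  inferInstanceAs (Algebra.FiniteType ℂ (MvPolynomial (Fin 3) ℂ))

noncomputable def wQ : W3 := (MvPolynomial.X 0 : MvPolynomial (Fin 3) ℂ)
noncomputable def wv : W3 := (MvPolynomial.X 1 : MvPolynomial (Fin 3) ℂ)
noncomputable def wg : W3 := (MvPolynomial.X 2 : MvPolynomial (Fin 3) ℂ)

lemma wQ_prime : Prime wQ := MvPolynomial.X_prime (R := ℂ) (i := (0 : Fin 3))

section
variable {A : Type*} [CommRing A] [Algebra ℂ A] (Q v g : A)

/-- Evaluation. -/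
noncomputable def wev : W3 →ₐ[ℂ] A := MvPolynomial.aeval (R := ℂ) ![Q, v, g]

@[simp] lemma wev_wQ : wev Q v g wQ = Q := MvPolynomial.aeval_X (R := ℂ) ![Q, v, g] 0
@[simp] lemma wev_wv : wev Q v g wv = v := MvPolynomial.aeval_X (R := ℂ) ![Q, v, g] 1
@[simp] lemma wev_wg : wev Q v g wg = g := MvPolynomial.aeval_X (R := ℂ) ![Q, v, g] 2

lemma W3_ext {φ ψ : W3 →ₐ[ℂ] A} (h1 : φ wQ = ψ wQ) (h2 : φ wv = ψ wv) (h3 : φ wg = ψ wg) :
    φ = ψ := by
  refine MvPolynomial.algHom_ext (R := ℂ) (σ := Fin 3) fun i => ?_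
  fin_cases i
  exacts [h1, h2, h3]
end

lemma W3_ind {P : W3 → Prop} (hC : ∀ c, P (algebraMap ℂ W3 c)) (hadd : ∀ p q, P p → P q → P (p + q))
    (hQ : ∀ p, P p → P (p * wQ)) (hv : ∀ p, P p → P (p * wv)) (hg : ∀ p, P p → P (p * wg))
    (p : W3) : P p := by
  refine MvPolynomial.induction_on (R := ℂ) (σ := Fin 3) (motive := P) p hC hadd fun p i hp => ?_
  fin_cases i
  exacts [hQ p hp, hv p hp, hg p hp]

abbrev W2 := MvPolynomial (Fin 2) ℂ

noncomputable def Phi3 : W3 := Phi wQ wv wg

/-- The coordinate ring of the quadric. -/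
def OS : Type := W3 ⧸ Ideal.span {Phi3}

noncomputable instance : CommRing OS := inferInstanceAs (CommRing (W3 ⧸ Ideal.span {Phi3}))
noncomputable instance : Algebra ℂ OS := inferInstanceAs (Algebra ℂ (W3 ⧸ Ideal.span {Phi3}))

noncomputable def omk : W3 →ₐ[ℂ] OS := Ideal.Quotient.mkₐ ℂ _

lemma omk_surj : Function.Surjective omk := Ideal.Quotient.mkₐ_surjective ℂ _

instance : Algebra.FiniteType ℂ OS := Algebra.FiniteType.of_surjective omk omk_surj

lemma omk_eq_zero {p : W3} : omk p = 0 ↔ Phi3 ∣ p := by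
  rw [← Ideal.mem_span_singleton, ← Ideal.Quotient.eq_zero_iff_mem]; rfl

noncomputable def oQ : OS := omk wQ
noncomputable def ov : OS := omk wv
noncomputable def og : OS := omk wg

lemma Phi_o : Phi oQ ov og = 0 := by
  rw [oQ, ov, og, ← map_Phi]; exact omk_eq_zero.2 dvd_rfl

/-- Evaluation at a point of the quadric. -/
noncomputable def oev {A : Type*} [CommRing A] [Algebra ℂ A] (Q v g : A) (h : Phi Q v g = 0) :
    OS →ₐ[ℂ] A :=
  Ideal.Quotient.liftₐ _ (wev Q v g) (by
    intro a ha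
    obtain ⟨c, rfl⟩ := Ideal.mem_span_singleton'.1 ha
    rw [map_mul, Phi3, map_Phi]
    simp [h])

section
variable {A : Type*} [CommRing A] [Algebra ℂ A] (Q v g : A) (h : Phi Q v g = 0)

lemma oev_omk (p : W3) : oev Q v g h (omk p) = wev Q v g p := rfl
@[simp] lemma oev_oQ : oev Q v g h oQ = Q := by simp [oQ, oev_omk]
@[simp] lemma oev_ov : oev Q v g h ov = v := by simp [ov, oev_omk]
@[simp] lemma oev_og : oev Q v g h og = g := by simp [og, oev_omk]

lemma OS_ext {φ ψ : OS →ₐ[ℂ] A} (h1 : φ oQ = ψ oQ) (h2 : φ ov = ψ ov) (h3 : φ og = ψ og) :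
    φ = ψ := by
  apply Ideal.Quotient.algHom_ext
  exact W3_ext h1 h2 h3
end

lemma dvd_of_dvd_prime_pow_mul {A : Type*} [CommRing A] [IsDomain A] {x ρ : A} (hx : Prime x)
    (h : ¬ x ∣ ρ) (n : ℕ) (p : A) (hp : ρ ∣ x ^ n * p) : ρ ∣ p := by
  induction n generalizing p with
  | zero => simpa using hp
  | succ n ih =>
    have h1 : ρ ∣ x * p := ih _ (by rwa [pow_succ, mul_assoc] at hp)
    obtain ⟨q, hq⟩ := h1
    have h2 : x ∣ q := (hx.dvd_or_dvd (show x ∣ ρ * q from ⟨p, hq.symm⟩)).resolve_left h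
    obtain ⟨q', rfl⟩ := h2
    exact ⟨q', mul_left_cancel₀ hx.ne_zero (by rw [hq]; ring)⟩

/-- The parametrisation of the surface `Z`, first three coordinates. -/
lemma Phi_Z {A : Type*} [CommRing A] (α β : A) :
    Phi (α * β) (α ^ 2 * β) (-α * (1 + α ^ 2 * β)) = 0 := by
  simp only [Phi]; ring

noncomputable def zeta0 : OS →ₐ[ℂ] W2 :=
  oev _ _ _ (Phi_Z (MvPolynomial.X 0) (MvPolynomial.X 1))

lemma zeta0_inj : Function.Injective zeta0 := by
  rw [injective_iff_map_eq_zero]
  intro o ho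
  obtain ⟨p, rfl⟩ := omk_surj o
  have ha : ∀ p : W3, ∃ (n : ℕ) (q : W2), oQ ^ n * omk p = MvPolynomial.aeval ![oQ, ov] q := by
    intro p
    induction p using W3_ind with
    | hC a => exact ⟨0, MvPolynomial.C a, by simp⟩
    | hadd p p' hp hp' =>
      obtain ⟨n, q, hq⟩ := hp
      obtain ⟨n', q', hq'⟩ := hp'
      refine ⟨n + n', MvPolynomial.X 0 ^ n' * q + MvPolynomial.X 0 ^ n * q', ?_⟩
      simp only [map_add, map_mul, map_pow, MvPolynomial.aeval_X, Matrix.cons_val_zero, ← hq,
        ← hq']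
      ring
    | hQ p hp =>
      obtain ⟨n, q, hq⟩ := hp
      refine ⟨n, q * MvPolynomial.X 0, ?_⟩
      simp only [map_mul, MvPolynomial.aeval_X, Matrix.cons_val_zero, ← hq]
      rw [mul_assoc]; rfl
    | hv p hp =>
      obtain ⟨n, q, hq⟩ := hp
      refine ⟨n, q * MvPolynomial.X 1, ?_⟩
      simp only [map_mul, MvPolynomial.aeval_X, Matrix.cons_val_one, Matrix.cons_val_zero, ← hq]
      rw [mul_assoc]; rfl
    | hg p hp =>
      obtain ⟨n, q, hq⟩ := hp
      refine ⟨n + 1, q * (-(MvPolynomial.X 1 * (MvPolynomial.X 1 + 1))), ?_⟩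
      simp only [map_mul, map_neg, map_add, map_one, MvPolynomial.aeval_X, Matrix.cons_val_one,
        Matrix.cons_val_zero, ← hq]
      have := Phi_o
      rw [Phi] at this
      change oQ ^ (n + 1) * (omk p * og) = _
      linear_combination oQ ^ n * omk p * this
  obtain ⟨n, q, hq⟩ := ha p
  have hq0 : q = 0 := by
    have h1 := congrArg zeta0 hq
    rw [map_mul, ho, mul_zero] at h1
    have h2 : MvPolynomial.X 0 * MvPolynomial.X 1 * q = 0 := by
      apply MvPolynomial.funext
      intro x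
      by_cases hx0 : x 0 = 0
      · simp [hx0]
      by_cases hx1 : x 1 = 0
      · simp [hx1]
      have h3 := congrArg (MvPolynomial.aeval ![x 1 / x 0, x 0 ^ 2 / x 1]) h1
      rw [map_zero, ← AlgHom.comp_apply, ← AlgHom.comp_apply] at h3
      have h4 : ((MvPolynomial.aeval ![x 1 / x 0, x 0 ^ 2 / x 1]).comp zeta0).comp
          (MvPolynomial.aeval ![oQ, ov]) = MvPolynomial.aeval x := by
        ext i
        fin_cases i
        · simp [zeta0]; field_simp
        · simp [zeta0]; field_simp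
      rw [h4] at h3
      have h5 : MvPolynomial.eval x q = 0 := h3.symm
      simp [h5]
    exact (mul_eq_zero.1 h2).resolve_left
      (mul_ne_zero (MvPolynomial.X_ne_zero _) (MvPolynomial.X_ne_zero _))
  rw [hq0, map_zero, oQ, ← map_pow, ← map_mul, omk_eq_zero] at hq
  rw [omk_eq_zero]
  refine dvd_of_dvd_prime_pow_mul wQ_prime ?_ n p hq
  rintro ⟨c, hc⟩
  have := congrArg (wev (0 : ℂ) 1 0) hc
  simp [Phi3, Phi] at this

instance : IsDomain OS := zeta0_inj.isDomain zeta0.toRingHom

lemma oQ_ne_zero : oQ ≠ 0 := by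
  intro h
  have := congrArg (oev (1 : ℂ) 0 0 (by simp [Phi])) h
  simp at this

lemma ov_ne_zero : ov ≠ 0 := by
  intro h
  have := congrArg (oev (0 : ℂ) (-1) 0 (by simp [Phi])) h
  simp at this

lemma hom_sum {O K : Type*} [CommRing O] [Field K] (f : O →+* K) (r s : K) (hs : s ≠ 0)
    (g : O[X]) : s ^ g.natDegree * eval₂ f (r / s) g =
      ∑ i ∈ Finset.range (g.natDegree + 1), f (g.coeff i) * r ^ i * s ^ (g.natDegree - i) := by
  rw [eval₂_eq_sum_range, Finset.mul_sum]
  refine Finset.sum_congr rfl fun i hi => ?_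
  have hi' : i ≤ g.natDegree := Nat.lt_succ_iff.1 (Finset.mem_range.1 hi)
  obtain ⟨k, hk⟩ := Nat.exists_eq_add_of_le hi'
  rw [hk, Nat.add_sub_cancel_left, div_pow, pow_add]
  field_simp

/-- The rigidity statement. -/
theorem quadric_no_LND (δ : Der OS[X]) (hδ : LN δ) (g₀ : OS) (hg : g₀ ≠ 0)
    (j : ℕ) (hj : j ≠ 0) (h0 : δ (C g₀ * X ^ j) = 0) (h1 : g₀ ∈ Ideal.span {oQ, ov + 1})
    (h2 : g₀ ∈ Ideal.span {ov, og}) : δ = 0 := by
  let K := FractionRing OS[X]
  let ι : OS[X] →+* K := algebraMap _ _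
  have hι : Function.Injective ι := IsFractionRing.injective _ _
  obtain ⟨E, hE⟩ := exists_exp δ hδ
  let E' : OS[X] →+* K[X] := (mapRingHom ι).comp E
  have hc : ∀ a n, (E' a).coeff n = ι (((n.factorial : ℂ)⁻¹) • δ^[n] a) := by
    intro a n
    simp only [E', RingHom.comp_apply, coe_mapRingHom, coeff_map, hE]
  have hc0 : ∀ a, (E' a).coeff 0 = ι a := by intro a; simp [hc]
  have hc1 : ∀ a, (E' a).coeff 1 = ι (δ a) := by intro a; simp [hc]
  have hconst : ∀ a, δ a = 0 → E' a = C (ι a) := by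
    intro a ha
    ext n
    cases n with
    | zero => simp [hc0]
    | succ n => rw [hc, Function.iterate_succ_apply, ha, iter_zero]; simp
  have hdeg : ∀ a, (E' a).natDegree = 0 → δ a = 0 := by
    intro a ha
    apply hι
    rw [← hc1, map_zero]
    exact coeff_eq_zero_of_natDegree_lt (by omega)
  have hunit : IsUnit (E' (C g₀) * E' X ^ j) := by
    rw [← map_pow, ← map_mul, hconst _ h0]
    refine isUnit_C.2 (Ne.isUnit ?_)
    rw [map_ne_zero_iff ι hι]
    exact mul_ne_zero (C_ne_zero.2 hg) (pow_ne_zero _ X_ne_zero)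
  have hug : IsUnit (E' (C g₀)) := isUnit_of_mul_isUnit_left hunit
  have huX : IsUnit (E' X) := (isUnit_pow_iff hj).1 (isUnit_of_mul_isUnit_right hunit)
  have hδX : δ X = 0 := hdeg _ (natDegree_eq_zero_of_isUnit huX)
  set Qt := E' (C oQ) with hQt
  set vt := E' (C ov) with hvt
  set gt := E' (C og) with hgt
  have hrel : Qt * gt + vt * (vt + 1) = 0 := by
    have := congrArg (E'.comp C) Phi_o
    rw [map_Phi, map_zero] at this
    exact this
  have hcop : ∀ y z : OS, g₀ ∈ Ideal.span {y, z} → IsCoprime (E' (C y)) (E' (C z)) := by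
    intro y z h
    obtain ⟨a, b, hab⟩ := Ideal.mem_span_pair.1 h
    obtain ⟨u, hu⟩ := hug.exists_left_inv
    refine ⟨u * E' (C a), u * E' (C b), ?_⟩
    rw [← hu, ← hab]
    simp only [map_add, map_mul]
    ring
  have hcop1 : IsCoprime Qt (vt + 1) := by simpa using hcop _ _ h1
  have hcop2 : IsCoprime vt gt := hcop _ _ h2
  have hQv : Qt ∣ vt := hcop1.dvd_of_dvd_mul_right ⟨-gt, by linear_combination hrel⟩
  have hvQ : vt ∣ Qt := hcop2.dvd_of_dvd_mul_right ⟨-(vt + 1), by linear_combination hrel⟩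
  have hιQ : ι (C oQ) ≠ 0 := by
    rw [map_ne_zero_iff ι hι]; exact C_ne_zero.2 oQ_ne_zero
  have hQ0 : Qt ≠ 0 := by
    intro h
    apply hιQ
    rw [← hc0, ← hQt, h, coeff_zero]
  obtain ⟨w, hw⟩ := hQv
  obtain ⟨w', hw'⟩ := hvQ
  have hwu : IsUnit w := by
    refine IsUnit.of_mul_eq_one w' (mul_left_cancel₀ hQ0 ?_)
    rw [← mul_assoc, ← hw, ← hw', mul_one]
  obtain ⟨c, -, rfl⟩ := Polynomial.isUnit_iff.1 hwu
  have hgt' : gt = -C c * (C c * Qt + 1) := by
    apply mul_left_cancel₀ hQ0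
    rw [hw] at hrel
    linear_combination hrel
  have hcv : c = ι (C ov) / ι (C oQ) := by
    rw [eq_div_iff hιQ, ← hc0, ← hc0, ← hvt, ← hQt, hw, coeff_mul_C, mul_comm]
  by_cases hd : Qt.natDegree = 0
  · have hQC := eq_C_of_natDegree_eq_zero hd
    have e1 : δ (C oQ) = 0 := hdeg _ hd
    have e2 : δ (C ov) = 0 := hdeg _ (by rw [← hvt, hw, hQC, ← C_mul, natDegree_C])
    have e3 : δ (C og) = 0 := hdeg _ (by
      rw [← hgt, hgt', hQC, ← C_mul, ← C_1, ← C_add, ← C_neg, ← C_mul, natDegree_C])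
    have e4 : ∀ p : W3, δ (C (omk p)) = 0 := by
      intro p
      have key : ∀ p q : W3, δ (C (omk p)) = 0 → δ (C (omk q)) = 0 → δ (C (omk (p * q))) = 0 := by
        intro p q hp hq
        rw [map_mul, map_mul, Derivation.leibniz, hp, hq, smul_zero, smul_zero, add_zero]
      induction p using W3_ind with
      | hC a => exact δ.map_algebraMap a
      | hadd p q hp hq => rw [map_add, map_add, map_add, hp, hq, add_zero]
      | hQ p hp => exact key _ _ hp e1
      | hv p hp => exact key _ _ hp e2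
      | hg p hp => exact key _ _ hp e3
    ext1 p
    induction p using Polynomial.induction_on with
    | C a =>
      obtain ⟨p, rfl⟩ := omk_surj a
      exact e4 p
    | add p q hp hq => rw [map_add, map_add, hp, hq]
    | monomial n a _ =>
      obtain ⟨p, rfl⟩ := omk_surj a
      simp [Derivation.leibniz, Derivation.leibniz_pow, e4, hδX]
  · exfalso
    obtain ⟨p, rfl⟩ := omk_surj g₀
    have hG : ∀ p : W3, E' (C (omk p)) =
        (wev X (X * C c) (-C c * (C c * X + 1)) p : K[X]).comp Qt := by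
      intro p
      induction p using W3_ind with
      | hC a =>
        have : E' (C (omk (algebraMap ℂ W3 a))) = _ := hconst _ (δ.map_algebraMap a)
        rw [this, AlgHom.commutes, AlgHom.commutes, algebraMap_apply (R := ℂ) (A := K), C_comp]
        rfl
      | hadd p q hp hq => rw [map_add, map_add, map_add, hp, hq, map_add, add_comp]
      | hQ p hp =>
        rw [map_mul, map_mul, map_mul, hp, map_mul, mul_comp, wev_wQ, X_comp]
        rfl
      | hv p hp =>
        rw [map_mul, map_mul, map_mul, hp, map_mul, mul_comp, wev_wv, mul_comp, X_comp, C_comp,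
          ← hw]
        rfl
      | hg p hp =>
        rw [map_mul, map_mul, map_mul, hp, map_mul, mul_comp, wev_wg]
        simp only [mul_comp, X_comp, C_comp, neg_comp, add_comp, one_comp]
        rw [← hgt']
        rfl
    set G : K[X] := wev X (X * C c) (-C c * (C c * X + 1)) p with hGdef
    have hGdeg : G.natDegree = 0 := by
      have := natDegree_eq_zero_of_isUnit hug
      rw [hG, natDegree_comp] at this
      exact (mul_eq_zero.1 this).resolve_right hd
    have hGC := eq_C_of_natDegree_eq_zero hGdeg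
    have hG0 : G.coeff 0 = ι (C (omk p)) := by
      rw [← hc0, hG, ← hGdef]
      nth_rewrite 2 [hGC]
      rw [C_comp, coeff_C_zero]
    let r : ℂ[X] := wev 0 0 (-X) p
    have hr : aeval c r = ι (C (omk p)) := by
      rw [← hG0, coeff_zero_eq_eval_zero]
      have : (aeval c : ℂ[X] →ₐ[ℂ] K).comp (wev 0 0 (-X)) =
          ((aeval (0 : K) : K[X] →ₐ[K] K).restrictScalars ℂ).comp
            (wev X (X * C c) (-C c * (C c * X + 1))) := by
        apply W3_ext <;> simp
      have h5 := DFunLike.congr_fun this p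
      simpa [hGdef] using h5
    have hs := hom_sum (algebraMap ℂ K) (ι (C ov)) (ι (C oQ)) hιQ r
    rw [← hcv, ← aeval_def, hr] at hs
    have hs' : (C oQ : OS[X]) ^ r.natDegree * C (omk p) =
        ∑ i ∈ Finset.range (r.natDegree + 1), algebraMap ℂ OS[X] (r.coeff i) * C ov ^ i *
          C oQ ^ (r.natDegree - i) := by
      apply hι
      simp only [map_mul, map_pow, map_sum]
      exact hs
    let ev0 : OS →ₐ[ℂ] ℂ := oev (0 : ℂ) (-1) 0 (by simp [Phi])
    let ev : OS[X] →ₐ[ℂ] ℂ := aevalTower ev0 0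
    have hev : ev0 (omk p) = 0 := by
      obtain ⟨a, b, hab⟩ := Ideal.mem_span_pair.1 h1
      rw [← hab]
      simp [ev0]
    have h6 := congrArg ev hs'
    rw [Finset.sum_range_succ, map_add, map_sum, Finset.sum_eq_zero] at h6
    · simp only [map_mul, map_pow, ev, aevalTower_C, hev, mul_zero, AlgHom.commutes,
        Nat.sub_self, pow_zero, mul_one, zero_add, ev0, oev_ov] at h6
      have h7 : r.leadingCoeff = 0 := by
        have := (mul_eq_zero.1 h6.symm).resolve_right (pow_ne_zero _ (by norm_num))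
        simpa using this
      rw [leadingCoeff_eq_zero] at h7
      rw [h7, map_zero] at hr
      exact hg (C_eq_zero.1 (hι (by rw [← hr, map_zero])))
    · intro i hi
      have : r.natDegree - i ≠ 0 := by
        have := Finset.mem_range.1 hi
        omega
      simp [ev, ev0, this]

end Crest.Agent.R268
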