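import Crest.Agent.R268.Top
import Crest.Agent.R268.Quadric
import Crest.Agent.R268.Stable

/-! The degree five polynomial of row 268 is not a coordinate. -/

set_option autoImplicit false

namespace Crest.Agent.R268

open Polynomial

noncomputable def zeta : OS[X] →ₐ[ℂ] W2 :=
  aevalTower zeta0 (MvPolynomial.X 0 - MvPolynomial.X 1)

lemma lead_zero {O A K A' : Type*} [CommRing O] [CommRing A] [Field K] [CommRing A']
    (θ : O →+* A) (ι : A →+* K) (hι : Function.Injective ι) (r s : A) (hs : s ≠ 0)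
    (ev : A →+* A') (hev : ev s = 0) (g : O[X]) (h : eval₂ (ι.comp θ) (ι r / ι s) g = 0) :
    ev (θ g.leadingCoeff) * ev r ^ g.natDegree = 0 := by
  have h1 := hom_sum (ι.comp θ) (ι r) (ι s) ((map_ne_zero_iff ι hι).2 hs) g
  rw [h, mul_zero] at h1
  have h2 : ∑ i ∈ Finset.range (g.natDegree + 1),
      θ (g.coeff i) * r ^ i * s ^ (g.natDegree - i) = 0 := by
    apply hι
    simp only [map_sum, map_mul, map_pow, map_zero]
    exact h1.symm
  have h3 := congrArg ev h2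
  rw [Finset.sum_range_succ, map_add, map_sum, Finset.sum_eq_zero] at h3
  · simpa using h3
  · intro i hi
    have : g.natDegree - i ≠ 0 := by
      have := Finset.mem_range.1 hi
      omega
    simp [hev, this]

lemma exists_field (A : Type) [CommRing A] [Algebra ℂ A] [IsDomain A] :
    ∃ (K : Type) (_ : Field K) (_ : Algebra ℂ K) (ι : A →ₐ[ℂ] K), Function.Injective ι :=
  ⟨FractionRing A, inferInstance, inferInstance, IsScalarTower.toAlgHom ℂ _ _,
    IsFractionRing.injective A _⟩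

lemma exists_quot (A : Type) [CommRing A] [Algebra ℂ A] (I : Ideal A) :
    ∃ (B : Type) (_ : CommRing B) (_ : Algebra ℂ B) (mk : A →ₐ[ℂ] B), ∀ p, mk p = 0 ↔ p ∈ I :=
  ⟨A ⧸ I, inferInstance, inferInstance, Ideal.Quotient.mkₐ ℂ I,
    fun _ => Ideal.Quotient.eq_zero_iff_mem⟩

lemma lead_aux {A K A' : Type*} [CommRing A] [Algebra ℂ A] [Field K] [Algebra ℂ K] [CommRing A']
    (ι : A →ₐ[ℂ] K) (hι : Function.Injective ι) (θ : OS →ₐ[ℂ] A) (r s : A) (hs : s ≠ 0)
    (α β : K) (e1 : α * β = ι (θ oQ)) (e2 : α ^ 2 * β = ι (θ ov))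
    (e3 : -α * (1 + α ^ 2 * β) = ι (θ og)) (e4 : α - β = ι r / ι s)
    (ev : A →+* A') (hev : ev s = 0) (g : OS[X]) (hg : zeta g = 0) :
    ev (θ g.leadingCoeff) * ev r ^ g.natDegree = 0 := by
  let η : W2 →ₐ[ℂ] K := MvPolynomial.aeval ![α, β]
  have h1 : η.comp zeta0 = ι.comp θ := by
    apply OS_ext
    · simpa [η, zeta0] using e1
    · simpa [η, zeta0] using e2
    · simpa [η, zeta0] using e3
  have h2 : η.comp zeta = aevalTower (ι.comp θ) (ι r / ι s) := by
    apply Polynomial.algHom_ext'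
    · rw [← h1]
      refine AlgHom.ext fun a => ?_
      simp [zeta]
    · simpa [zeta, η] using e4
  have h3 := DFunLike.congr_fun h2 g
  rw [AlgHom.comp_apply, hg, map_zero] at h3
  exact lead_zero (θ : OS →+* A) (ι : A →+* K) hι r s hs ev hev g h3.symm

lemma lead_mem2 (g : OS[X]) (hg : zeta g = 0) : g.leadingCoeff ∈ Ideal.span {ov, og} := by
  obtain ⟨K, _, _, ι, hι⟩ := exists_field ℂ[X][X]
  have hX : ι X ≠ 0 := (map_ne_zero_iff ι hι).2 X_ne_zero
  let θ : OS →ₐ[ℂ] ℂ[X][X] := oev (C X) (X * C X) (-X * (1 + X * C X)) (by simp only [Phi]; ring)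
  have h4 := lead_aux ι hι θ (X ^ 2 - C X) X X_ne_zero (ι X) (ι (C X) / ι X)
    (by simp only [θ, oev_oQ]; field_simp)
    (by simp only [θ, oev_ov, map_mul]; field_simp)
    (by simp only [θ, oev_og, map_mul, map_add, map_neg, map_one]; field_simp)
    (by simp only [map_sub, map_pow]; field_simp)
    (evalRingHom 0) (by simp) g hg
  have h5 : eval 0 (θ g.leadingCoeff) = 0 := by
    refine (mul_eq_zero.1 h4).resolve_right (pow_ne_zero _ ?_)
    simp
  obtain ⟨B, _, _, mk, hmk⟩ := exists_quot OS (Ideal.span {ov, og})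
  have e1 : mk ov = 0 := (hmk _).2 (Ideal.subset_span (by simp))
  have e2 : mk og = 0 := (hmk _).2 (Ideal.subset_span (by simp))
  have h6 : mk = (mk.comp (aeval oQ)).comp ((aevalTower (AlgHom.id ℂ ℂ[X]) 0).comp θ) := by
    apply OS_ext <;> simp [θ, e1, e2]
  have h7 := DFunLike.congr_fun h6 g.leadingCoeff
  have h8 : aevalTower (AlgHom.id ℂ ℂ[X]) 0 (θ g.leadingCoeff) = 0 := h5
  rw [AlgHom.comp_apply, AlgHom.comp_apply, AlgHom.comp_apply, h8, map_zero, map_zero] at h7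
  exact (hmk _).1 h7

lemma lead_mem1 (g : OS[X]) (hg : zeta g = 0) : g.leadingCoeff ∈ Ideal.span {oQ, ov + 1} := by
  obtain ⟨K, _, _, ι, hι⟩ := exists_field ℂ[X][X]
  have hX : ι X ≠ 0 := (map_ne_zero_iff ι hι).2 X_ne_zero
  let θ : OS →ₐ[ℂ] ℂ[X][X] := oev (X * (X * C X - 1)) (X * C X - 1) (-(C X : ℂ[X][X]))
    (by simp only [Phi]; ring)
  have h4 := lead_aux ι hι θ (1 - X ^ 3 * (X * C X - 1)) X X_ne_zero (1 / ι X)
    (ι X ^ 2 * (ι X * ι (C X) - 1))
    (by simp only [θ, oev_oQ, map_mul, map_sub, map_one]; field_simp)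
    (by simp only [θ, oev_ov, map_mul, map_sub, map_one]; field_simp)
    (by simp only [θ, oev_og, map_neg]; field_simp; ring)
    (by simp only [map_sub, map_pow, map_mul, map_one]; field_simp)
    (evalRingHom 0) (by simp) g hg
  have h5 : eval 0 (θ g.leadingCoeff) = 0 := by
    refine (mul_eq_zero.1 h4).resolve_right (pow_ne_zero _ ?_)
    simp
  obtain ⟨B, _, _, mk, hmk⟩ := exists_quot OS (Ideal.span {oQ, ov + 1})
  have e1 : mk oQ = 0 := (hmk _).2 (Ideal.subset_span (by simp))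
  have e2 : mk (ov + 1) = 0 := (hmk _).2 (Ideal.subset_span (by simp))
  rw [map_add, map_one, add_eq_zero_iff_eq_neg] at e2
  have h6 : mk = (mk.comp (aeval (-og))).comp ((aevalTower (AlgHom.id ℂ ℂ[X]) 0).comp θ) := by
    apply OS_ext
    · simp only [AlgHom.comp_apply, θ, oev_oQ, map_mul, aevalTower_X, zero_mul, map_zero, e1]
    · simp only [AlgHom.comp_apply, θ, oev_ov, map_mul, map_sub, map_one, aevalTower_X, zero_mul,
        e2, zero_sub, map_neg]
    · simp only [AlgHom.comp_apply, θ, oev_og, map_neg, aevalTower_C, AlgHom.id_apply, aeval_X,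
        neg_neg]
  have h7 := DFunLike.congr_fun h6 g.leadingCoeff
  have h8 : aevalTower (AlgHom.id ℂ ℂ[X]) 0 (θ g.leadingCoeff) = 0 := h5
  rw [AlgHom.comp_apply, AlgHom.comp_apply, AlgHom.comp_apply, h8, map_zero, map_zero] at h7
  exact (hmk _).1 h7

theorem no_LND_Z (δ : Der OS[X]) (hδ : LN δ) (g : OS[X]) (hg0 : g ≠ 0) (hg : zeta g = 0)
    (h : δ g = 0) : δ = 0 := by
  by_contra h0
  obtain ⟨δ', h1, h2, h3⟩ := top_part δ hδ h0 g h
  refine h2 (quadric_no_LND δ' h1 _ (leadingCoeff_ne_zero.2 hg0) _ ?_ h3 (lead_mem1 g hg)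
    (lead_mem2 g hg))
  intro hd
  have := eq_C_of_natDegree_eq_zero hd
  rw [this, zeta, aevalTower_C, map_eq_zero_iff _ zeta0_inj] at hg
  exact hg0 (by rw [this, hg, map_zero])

noncomputable def Q4 : B4 :=
  bQ (MvPolynomial.X 0) (MvPolynomial.X 1) (MvPolynomial.X 2) (MvPolynomial.X 3)
noncomputable def v4 : B4 :=
  bv (MvPolynomial.X 0) (MvPolynomial.X 1) (MvPolynomial.X 2) (MvPolynomial.X 3)
noncomputable def g4 : B4 :=
  bg (MvPolynomial.X 0) (MvPolynomial.X 1) (MvPolynomial.X 2) (MvPolynomial.X 3)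
noncomputable def h4 : B4 :=
  bh (MvPolynomial.X 0) (MvPolynomial.X 1) (MvPolynomial.X 2) (MvPolynomial.X 3)
noncomputable def w4 : B4 :=
  bw (MvPolynomial.X 0) (MvPolynomial.X 1) (MvPolynomial.X 2) (MvPolynomial.X 3)
noncomputable def Y4 : B4 :=
  bY (MvPolynomial.X 0) (MvPolynomial.X 1) (MvPolynomial.X 2) (MvPolynomial.X 3)

noncomputable def pi0 : W3[X][X] →ₐ[ℂ] B4 :=
  aevalTower (aevalTower (wev Q4 v4 g4) h4) f408

noncomputable def kap0 : W3[X][X] →ₐ[ℂ] OS[X] := aevalTower (mapAlgHom omk) 0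

lemma pi0_X : pi0 X = f408 := by simp [pi0]
lemma pi0_CX : pi0 (C X) = h4 := by simp [pi0]
lemma pi0_CC (p : W3) : pi0 (C (C p)) = wev Q4 v4 g4 p := by
  simp only [pi0, aevalTower_C]
lemma pi0_Q : pi0 (C (C wQ)) = Q4 := by simp [pi0_CC]
lemma pi0_v : pi0 (C (C wv)) = v4 := by simp [pi0_CC]
lemma pi0_g : pi0 (C (C wg)) = g4 := by simp [pi0_CC]
lemma pi0_Phi : pi0 (C (C Phi3)) = f408 * h4 := by
  rw [pi0_CC, Phi3, map_Phi]
  simp only [wev_wQ, wev_wv, wev_wg]
  exact (bf_mul_h _ _ _ _).symm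

lemma kap0_eq (p : W3[X][X]) : kap0 p = (p.coeff 0).map (omk : W3 →+* OS) := by
  have : kap0 = (mapAlgHom omk).comp (aevalTower (AlgHom.id ℂ _) 0) := by
    apply Polynomial.algHom_ext'
    · refine AlgHom.ext fun a => ?_
      simp [kap0]
    · simp [kap0]
  rw [this, coeff_zero_eq_eval_zero]
  rfl

lemma kap0_surj : Function.Surjective kap0 := by
  intro y
  obtain ⟨q, rfl⟩ := map_surjective (omk : W3 →+* OS) omk_surj y
  exact ⟨C q, by simp [kap0_eq]⟩

lemma f408_ne_zero : f408 ≠ 0 := by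
  intro h
  have := congrArg (MvPolynomial.eval ![1, 0, 0, 0]) h
  simp [f408, bf, bQ, bv] at this

lemma f408_not_unit : ¬ IsUnit f408 := by
  intro h
  have := h.map (MvPolynomial.eval ![0, 0, 0, 0])
  simp [f408, bf, bQ, bv] at this

noncomputable def wP : W3[X][X] :=
  -(C (C wg) : W3[X][X]) - C (C wv) * C X - C (C wQ) ^ 2

lemma pi0_w : pi0 wP = w4 := by
  simp only [wP, map_sub, map_neg, map_mul, map_pow, pi0_Q, pi0_v, pi0_g, pi0_CX, g4, bg, w4,
    v4, h4, Q4]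
  ring

lemma pi0_loc (b : B4) : b ∈ locAlg pi0 X := by
  have hf : f408 ∈ locAlg pi0 X := pi0_X ▸ map_mem_locAlg pi0 X X
  have hh : h4 ∈ locAlg pi0 X := pi0_CX ▸ map_mem_locAlg pi0 X _
  have hw : w4 ∈ locAlg pi0 X := pi0_w ▸ map_mem_locAlg pi0 X _
  have hQ : Q4 ∈ locAlg pi0 X := pi0_Q ▸ map_mem_locAlg pi0 X _
  have hv : v4 ∈ locAlg pi0 X := pi0_v ▸ map_mem_locAlg pi0 X _
  have hu : MvPolynomial.X 2 ∈ locAlg pi0 X := by
    apply mem_locAlg_of_mul 1
    rw [pow_one, pi0_X, f408, bf_mul_u]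
    exact sub_mem hv (mul_mem hQ hw)
  have hY : Y4 ∈ locAlg pi0 X := by
    apply mem_locAlg_of_mul 1
    rw [pow_one, pi0_X, f408, Y4, bf_mul_Y]
    exact sub_mem hQ (mul_mem hw (sub_mem hw hh))
  let φ : MvPolynomial (Fin 5) ℂ →ₐ[ℂ] B4 :=
    MvPolynomial.aeval ![f408, w4, h4, MvPolynomial.X 2, Y4]
  have hφ : ∀ p, φ p ∈ locAlg pi0 X := by
    apply mv_mem
    intro i
    fin_cases i <;> simp [φ, hf, hh, hw, hu, hY]
  refine mv_mem (AlgHom.id ℂ _) _ (fun i => ?_) b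
  fin_cases i
  · have := hφ (ma (MvPolynomial.X 0) (MvPolynomial.X 1) (MvPolynomial.X 2) (MvPolynomial.X 3)
      (MvPolynomial.X 4))
    simpa [φ, f408, w4, h4, Y4, ma_b] using this
  · have := hφ (mb (MvPolynomial.X 0) (MvPolynomial.X 1) (MvPolynomial.X 2) (MvPolynomial.X 3)
      (MvPolynomial.X 4))
    simpa [φ, f408, w4, h4, Y4, mb_b] using this
  · exact hu
  · have := hφ (md (MvPolynomial.X 0) (MvPolynomial.X 1) (MvPolynomial.X 2) (MvPolynomial.X 3)
      (MvPolynomial.X 4))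
    simpa [φ, f408, w4, h4, Y4, md_b] using this

noncomputable def rho : W3[X][X] := X * C X - C (C Phi3)

lemma Phi3_ne_zero : Phi3 ≠ 0 := by
  intro h
  have := congrArg (wev (0 : ℂ) 1 0) h
  simp [Phi3, Phi] at this

lemma rho_dvd_of_pi0 (p : W3[X][X]) (hp : pi0 p = 0) : rho ∣ p := by
  have ha : ∀ p : W3[X][X], ∃ (n : ℕ) (p₀ : W3[X]), rho ∣ X ^ n * p - p₀.map C := by
    intro p
    obtain ⟨B, _, _, mk, hmk⟩ := exists_quot W3[X][X] (Ideal.span {rho})
    let π' : W3[X] →ₐ[ℂ] B := mk.comp (mapAlgHom CAlgHom)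
    have hπ' : ∀ q, π' q = mk (Polynomial.map C q) := fun q => rfl
    have hX : π' X = mk X := by rw [hπ', map_X]
    have hrho : mk rho = 0 := (hmk _).2 (Ideal.mem_span_singleton_self _)
    have : mk p ∈ locAlg π' X := by
      refine poly_mem mk _ (fun a => ?_) (hX ▸ map_mem_locAlg π' X X) p
      refine poly_mem (mk.comp CAlgHom) _ (fun a => ?_) ?_ a
      · have := map_mem_locAlg π' X (C a)
        rwa [hπ', map_C] at this
      · refine ⟨1, C Phi3, ?_⟩
        rw [hπ', hπ', map_C, map_X, pow_one]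
        rw [rho, map_sub, map_mul, sub_eq_zero] at hrho
        exact hrho
    obtain ⟨n, p₀, h⟩ := this
    refine ⟨n, p₀, ?_⟩
    rw [← Ideal.mem_span_singleton, ← hmk, map_sub, map_mul, map_pow, ← hX, h, hπ', sub_self]
  obtain ⟨n, p₀, h⟩ := ha p
  have hrho : pi0 rho = 0 := by rw [rho, map_sub, map_mul, pi0_X, pi0_CX, pi0_Phi, sub_self]
  have h1 : pi0 (p₀.map C) = 0 := by
    obtain ⟨c, hc⟩ := h
    have := congrArg pi0 hc
    rw [map_sub, map_mul, map_mul, hp, hrho] at this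
    simpa using this
  have h2 : p₀ = 0 := by
    apply poly_eq_zero_of_eval
    intro c hc
    have hl : algebraMap ℂ W3 c * algebraMap ℂ W3 c⁻¹ = 1 := by
      rw [← map_mul, mul_inv_cancel₀ hc, map_one]
    have H := mH_g hl wQ wv wg
    let ω : B4 →ₐ[ℂ] W3 :=
      MvPolynomial.aeval (gpt (algebraMap ℂ W3 c) (algebraMap ℂ W3 c⁻¹) wQ wv wg)
    have : (ω.comp pi0).comp (mapAlgHom CAlgHom) =
        aevalTower (AlgHom.id ℂ W3) (algebraMap ℂ W3 c) := by
      apply Polynomial.algHom_ext'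
      · apply W3_ext
        · simp [pi0_Q, ω, Q4, gpt, bQ_m H, mQ_g hl]
        · simp [pi0_v, ω, v4, gpt, bv_m H, mv_g hl]
        · simp [pi0_g, ω, g4, gpt, bg_m H, mg_g hl]
      · simp [pi0_X, ω, f408, gpt, bf_m H]
    have h3 := DFunLike.congr_fun this p₀
    have h4 : ((ω.comp pi0).comp (mapAlgHom CAlgHom)) p₀ = ω (pi0 (p₀.map C)) := rfl
    rw [h4, h1, map_zero] at h3
    exact h3.symm
  rw [h2, Polynomial.map_zero, sub_zero] at h
  refine dvd_of_dvd_prime_pow_mul prime_X ?_ n p h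
  rw [X_dvd_iff]
  simp [rho, Phi3_ne_zero]

lemma kap0_iff (p : W3[X][X]) : kap0 p = 0 ↔ ∃ q, pi0 p = pi0 X * pi0 q := by
  constructor
  · intro h
    rw [kap0_eq] at h
    have h1 : C Phi3 ∣ p.coeff 0 := by
      rw [C_dvd_iff_dvd_coeff]
      intro i
      rw [← omk_eq_zero]
      have := congrArg (coeff · i) h
      simpa using this
    obtain ⟨c, hc⟩ := h1
    refine ⟨p.divX + C X * C c, ?_⟩
    conv_lhs => rw [← X_mul_divX_add p, hc]
    simp only [map_add, map_mul, pi0_Phi, pi0_X, pi0_CX]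
    ring
  · rintro ⟨q, hq⟩
    obtain ⟨c, hc⟩ := rho_dvd_of_pi0 (p - X * q) (by rw [map_sub, map_mul, hq, sub_self])
    have h1 : kap0 X = 0 := by simp [kap0]
    have h2 : kap0 rho = 0 := by
      rw [rho, map_sub, map_mul, h1, kap0_eq (C (C Phi3))]
      simp [omk_eq_zero]
    have := congrArg kap0 hc
    rw [map_sub, map_mul, map_mul, h1, h2] at this
    simpa using this

noncomputable def xi : B4 →ₐ[ℂ] W2 :=
  MvPolynomial.aeval (zpt (MvPolynomial.X 0) (MvPolynomial.X 0 - MvPolynomial.X 1) 0)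

lemma xi_f : xi f408 = 0 := by
  have H := mH_z (A := W2) (MvPolynomial.X 0) (MvPolynomial.X 0 - MvPolynomial.X 1) 0
  simp [xi, f408, zpt, bf_m H]

lemma xi_pi0 (p : W3[X][X]) : xi (pi0 p) = zeta (kap0 p) := by
  have H := mH_z (A := W2) (MvPolynomial.X 0) (MvPolynomial.X 0 - MvPolynomial.X 1) 0
  have : xi.comp pi0 = zeta.comp kap0 := by
    apply Polynomial.algHom_ext'
    · apply Polynomial.algHom_ext'
      · apply W3_ext
        · have : zeta0 (omk wQ) = _ := oev_oQ _ _ _ _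
          simp [pi0_Q, xi, Q4, zpt, bQ_m H, kap0, zeta, this, mQ]
        · have : zeta0 (omk wv) = _ := oev_ov _ _ _ _
          simp [pi0_v, xi, v4, zpt, bv_m H, kap0, zeta, this, mv, mQ]
          ring
        · have : zeta0 (omk wg) = _ := oev_og _ _ _ _
          simp [pi0_g, xi, g4, zpt, bg_m H, kap0, zeta, this, mg, mv, mQ]
          ring
      · simp [pi0_CX, xi, h4, zpt, bh_m H, kap0, zeta]
    · simp [pi0_X, xi_f, kap0]
  exact DFunLike.congr_fun this p

theorem f408_not_coord : ¬ ∃ τ : B4 ≃ₐ[ℂ] B4, τ f408 = MvPolynomial.X 0 := by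
  classical
  rintro ⟨τ, hτ⟩
  obtain ⟨i, hi0, hi⟩ : ∃ i : Fin 4, i ≠ 0 ∧ τ.symm (MvPolynomial.X i) ∉ pi0.range := by
    by_contra hall
    push Not at hall
    have h1 : ∀ p, (τ.symm : B4 →ₐ[ℂ] B4) p ∈ pi0.range := by
      apply mv_mem
      intro i
      by_cases h : i = 0
      · subst h
        exact ⟨X, by rw [← hτ]; simp [pi0_X]⟩
      · exact hall i h
    obtain ⟨p, hp⟩ := h1 (τ (MvPolynomial.X 2))
    have hp' : pi0 p = MvPolynomial.X 2 := by simpa using hp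
    have h2 : kap0 (C (C wv) - C (C wQ) * wP) = 0 := by
      refine (kap0_iff _).2 ⟨p, ?_⟩
      rw [map_sub, map_mul, pi0_v, pi0_Q, pi0_w, pi0_X, hp', f408, bf_mul_u]
      rfl
    let ev0 : OS →ₐ[ℂ] ℂ := oev (1 : ℂ) 0 0 (by simp [Phi])
    have h3 := congrArg (aevalTower ev0 0) h2
    have e0 : ev0 (omk wQ) = 1 := oev_oQ _ _ _ _
    have e1 : ev0 (omk wv) = 0 := oev_ov _ _ _ _
    have e2 : ev0 (omk wg) = 0 := oev_og _ _ _ _
    simp [kap0, wP, e0, e1, e2] at h3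
  obtain ⟨j, hj0, hji⟩ : ∃ j : Fin 4, j ≠ 0 ∧ j ≠ i := by
    by_cases h : i = 1
    · exact ⟨2, by decide, by subst h; decide⟩
    · exact ⟨1, by decide, Ne.symm h⟩
  let D : Der B4 := conj τ ((MvPolynomial.pderiv j : Derivation ℂ B4 B4).restrictScalars ℂ)
  have hD : ∀ b, D b = τ.symm (MvPolynomial.pderiv j (τ b)) := fun b => rfl
  have hDf : D f408 = 0 := by
    rw [hD, hτ, MvPolynomial.pderiv_X_of_ne (Ne.symm hj0), map_zero]
  have hDi : D (τ.symm (MvPolynomial.X i)) = 0 := by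
    rw [hD, τ.apply_symm_apply, MvPolynomial.pderiv_X_of_ne (Ne.symm hji), map_zero]
  have hD0 : D ≠ 0 := by
    intro h
    have := hD (τ.symm (MvPolynomial.X j))
    rw [h, τ.apply_symm_apply, MvPolynomial.pderiv_X_self, map_one] at this
    simp at this
  obtain ⟨δ, h1, h2, h3⟩ := reduce_LND pi0 kap0 kap0_surj X (by rw [pi0_X]; exact f408_ne_zero)
    pi0_loc kap0_iff (by
      intro b hb
      by_contra hb0
      rw [pi0_X] at hb
      obtain ⟨n, hn⟩ := FiniteMultiplicity.of_not_isUnit f408_not_unit hb0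
      exact hn (hb _)) D (conj_LN τ _ (LN_pderiv j)) (by rw [pi0_X]; exact hDf) hD0
  have hex : ∃ N p, pi0 X ^ N * τ.symm (MvPolynomial.X i) = pi0 p := pi0_loc _
  obtain ⟨p, hp⟩ := Nat.find_spec hex
  have hm0 : Nat.find hex ≠ 0 := by
    intro h
    rw [h, pow_zero, one_mul] at hp
    exact hi ⟨p, hp.symm⟩
  obtain ⟨m, hm⟩ := Nat.exists_eq_succ_of_ne_zero hm0
  refine h2 (no_LND_Z δ h1 (kap0 p) ?_ ?_ (h3 p ?_))
  · intro h
    obtain ⟨q, hq⟩ := (kap0_iff p).1 h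
    refine Nat.find_min hex (m := m) (by omega) ⟨q, ?_⟩
    apply mul_left_cancel₀ (show pi0 X ≠ 0 by rw [pi0_X]; exact f408_ne_zero)
    rw [← hq, ← hp, hm, pow_succ]
    ring
  · rw [← xi_pi0, ← hp, hm, map_mul, map_pow, pi0_X, xi_f, zero_pow (Nat.succ_ne_zero m), zero_mul]
  · rw [← hp, hm, Derivation.leibniz, Derivation.leibniz_pow, pi0_X, hDf, hDi]
    simp

end Crest.Agent.R268
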