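import Crest.Agent.R268.LND

/-! Top-degree part of a locally nilpotent derivation of a polynomial ring. -/

set_option autoImplicit false

namespace Crest.Agent.R268

open Polynomial

section loc
variable {P B : Type*} [CommRing P] [Algebra ℂ P] [CommRing B] [Algebra ℂ B]

/-- Elements that land in the range of `π` after multiplication by a power of `π x₀`. -/
def locAlg (π : P →ₐ[ℂ] B) (x₀ : P) : Subalgebra ℂ B where
  carrier := {b | ∃ N p, π x₀ ^ N * b = π p}
  mul_mem' := by
    rintro a b ⟨N, p, hp⟩ ⟨M, q, hq⟩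
    exact ⟨N + M, p * q, by rw [map_mul, ← hp, ← hq]; ring⟩
  add_mem' := by
    rintro a b ⟨N, p, hp⟩ ⟨M, q, hq⟩
    exact ⟨N + M, x₀ ^ M * p + x₀ ^ N * q, by
      rw [map_add, map_mul, map_mul, map_pow, map_pow, ← hp, ← hq]; ring⟩
  algebraMap_mem' := fun r => ⟨0, algebraMap ℂ P r, by simp⟩

lemma mem_locAlg {π : P →ₐ[ℂ] B} {x₀ : P} {b : B} :
    b ∈ locAlg π x₀ ↔ ∃ N p, π x₀ ^ N * b = π p := Iff.rfl

lemma map_mem_locAlg (π : P →ₐ[ℂ] B) (x₀ p : P) : π p ∈ locAlg π x₀ := ⟨0, p, by simp⟩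

lemma mem_locAlg_of_mul {π : P →ₐ[ℂ] B} {x₀ : P} {b : B} (n : ℕ)
    (h : π x₀ ^ n * b ∈ locAlg π x₀) : b ∈ locAlg π x₀ := by
  obtain ⟨N, p, hp⟩ := h
  exact ⟨N + n, p, by rw [← hp]; ring⟩

lemma poly_mem (φ : P[X] →ₐ[ℂ] B) (S : Subalgebra ℂ B) (h1 : ∀ a, φ (C a) ∈ S) (h2 : φ X ∈ S)
    (p : P[X]) : φ p ∈ S := by
  induction p using Polynomial.induction_on with
  | C a => exact h1 a
  | add p q hp hq => rw [map_add]; exact add_mem hp hq
  | monomial n a h => rw [pow_succ, ← mul_assoc, map_mul]; exact mul_mem h h2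

lemma mv_mem {σ : Type*} (φ : MvPolynomial σ ℂ →ₐ[ℂ] B) (S : Subalgebra ℂ B)
    (h : ∀ i, φ (MvPolynomial.X i) ∈ S) (p : MvPolynomial σ ℂ) : φ p ∈ S := by
  induction p using MvPolynomial.induction_on with
  | C a => exact (φ.commutes a) ▸ S.algebraMap_mem a
  | add p q hp hq => rw [map_add]; exact add_mem hp hq
  | mul_X p i hp => rw [map_mul]; exact mul_mem hp (h i)

lemma poly_eq_zero_of_eval [IsDomain P] (p : P[X])
    (h : ∀ c : ℂ, c ≠ 0 → eval (algebraMap ℂ P c) p = 0) : p = 0 := by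
  apply eq_zero_of_infinite_isRoot
  have hinf : (({0} : Set ℂ)ᶜ).Infinite := (Set.finite_singleton 0).infinite_compl
  refine (hinf.image (algebraMap ℂ P).injective.injOn).mono ?_
  rintro _ ⟨c, hc, rfl⟩
  exact h c hc

end loc

section top
variable {O : Type*} [CommRing O] [Algebra ℂ O]

/-- Coefficientwise extension of a derivation. -/
noncomputable def extDer (δ : Der O) : Der O[X] :=
  PolynomialModule.equivPolynomialSelf.compDer δ.mapCoeffs

lemma coeff_extDer (δ : Der O) (p : O[X]) (i : ℕ) : (extDer δ p).coeff i = δ (p.coeff i) := rfl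

lemma extDer_C (δ : Der O) (a : O) : extDer δ (C a) = C (δ a) := by
  ext i
  rw [coeff_extDer, coeff_C, coeff_C]
  split_ifs <;> simp

lemma extDer_X (δ : Der O) : extDer δ X = 0 := by
  ext i
  rw [coeff_extDer, coeff_X]
  split_ifs <;> simp

lemma extDer_LN (δ : Der O) (h : LN δ) : LN (extDer δ) := by
  refine LN_of_adjoin _ (Set.range C ∪ {X}) ?_ ?_
  · rw [eq_top_iff]
    intro p _
    exact poly_mem (AlgHom.id ℂ _) _ (fun a => Algebra.subset_adjoin (Or.inl ⟨a, rfl⟩))
      (Algebra.subset_adjoin (Or.inr rfl)) p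
  · rintro a (⟨c, rfl⟩ | rfl)
    · obtain ⟨k, hk⟩ := h c
      refine ⟨k, ?_⟩
      have : ∀ n, (extDer δ)^[n] (C c) = C (δ^[n] c) := by
        intro n
        induction n with
        | zero => rfl
        | succ n ih => rw [Function.iterate_succ_apply', Function.iterate_succ_apply', ih, extDer_C]
      rw [this, hk, map_zero]
    · exact ⟨1, extDer_X δ⟩

theorem top_part [IsDomain O] [Algebra.FiniteType ℂ O] (δ : Der O[X]) (hδ : LN δ) (h0 : δ ≠ 0)
    (g : O[X]) (hg : δ g = 0) :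
    ∃ δ' : Der O[X], LN δ' ∧ δ' ≠ 0 ∧ δ' (C g.leadingCoeff * X ^ g.natDegree) = 0 := by
  let π : O[X][X] →ₐ[ℂ] O[X][X] :=
    aevalTower (aevalTower (IsScalarTower.toAlgHom ℂ O O[X][X]) (X * C X)) X
  let κ : O[X][X] →ₐ[ℂ] O[X] := aevalTower (AlgHom.id ℂ _) 0
  have hπX : π X = X := by simp [π]
  have hπCX : π (C X) = X * C X := by simp [π]
  have hπCC : ∀ a, π (C (C a)) = C (C a) := by intro a; simp [π]
  have hκ : ∀ p, κ p = p.coeff 0 := by
    intro p
    rw [coeff_zero_eq_eval_zero]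
    rfl
  have hinj : ∀ p, π p = 0 → p = 0 := by
    intro p hp
    apply poly_eq_zero_of_eval
    intro c hc
    let ev : O[X][X] →ₐ[ℂ] O[X] :=
      aevalTower (aevalTower (IsScalarTower.toAlgHom ℂ O O[X]) (algebraMap ℂ O[X] c⁻¹ * X))
        (algebraMap ℂ O[X] c)
    have : ev.comp π = aevalTower (AlgHom.id ℂ _) (algebraMap ℂ O[X] c) := by
      apply Polynomial.algHom_ext'
      · apply Polynomial.algHom_ext'
        · ext a : 1
          simp [hπCC, ev]
        · simp only [AlgHom.comp_apply, CAlgHom_apply, hπCX, map_mul, ev, aevalTower_X,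
            aevalTower_C, AlgHom.id_apply]
          rw [← mul_assoc, ← map_mul, mul_inv_cancel₀ hc, map_one, one_mul]
      · simp only [AlgHom.comp_apply, hπX, ev, aevalTower_X]
    have h1 := DFunLike.congr_fun this p
    rw [AlgHom.comp_apply, hp, map_zero] at h1
    exact h1.symm
  have key : ∃ δ' : Der O[X], LN δ' ∧ δ' ≠ 0 ∧ ∀ p, extDer δ (π p) = 0 → δ' (κ p) = 0 := by
    refine reduce_LND π κ (fun y => ⟨C y, by simp [hκ]⟩) X
      (by rw [hπX]; exact X_ne_zero) ?_ ?_ ?_ (extDer δ) (extDer_LN δ hδ)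
      (by rw [hπX, extDer_X]) ?_
    · intro b
      refine poly_mem (AlgHom.id ℂ _) (locAlg π X) (fun a => ?_) ?_ b
      · refine poly_mem (CAlgHom : O[X] →ₐ[ℂ] O[X][X]) (locAlg π X) (fun a => ?_) ?_ a
        · exact ⟨0, C (C a), by simp [hπCC]⟩
        · exact ⟨1, C X, by simp [hπX, hπCX]⟩
      · exact ⟨0, X, by simp [hπX]⟩
    · intro p
      rw [hκ, ← X_dvd_iff]
      constructor
      · rintro ⟨q, rfl⟩
        exact ⟨q, map_mul _ _ _⟩
      · rintro ⟨q, hq⟩
        exact ⟨q, sub_eq_zero.1 (hinj _ (by rw [map_sub, map_mul, hq, sub_self]))⟩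
    · intro b hb
      ext1 n
      rw [hπX] at hb
      exact X_pow_dvd_iff.1 (hb (n + 1)) n (Nat.lt_succ_self n)
    · intro h
      apply h0
      ext1 a
      have := extDer_C δ a
      rw [h] at this
      exact C_eq_zero.1 this.symm
  obtain ⟨δ', h1, h2, h3⟩ := key
  · refine ⟨δ', h1, h2, ?_⟩
    let p : O[X][X] := ∑ i ∈ Finset.range (g.natDegree + 1),
      C (C (g.coeff i) * X ^ i) * X ^ (g.natDegree - i)
    have e1 : π p = X ^ g.natDegree * C g := by
      conv_rhs => enter [2]; rw [g.as_sum_range_C_mul_X_pow]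
      simp only [p, map_sum, map_mul, map_pow, hπX, hπCX, hπCC, Finset.mul_sum]
      refine Finset.sum_congr rfl fun i hi => ?_
      have hi' : i ≤ g.natDegree := Nat.lt_succ_iff.1 (Finset.mem_range.1 hi)
      obtain ⟨k, hk⟩ := Nat.exists_eq_add_of_le hi'
      rw [hk, Nat.add_sub_cancel_left]
      ring
    have e2 : κ p = C g.leadingCoeff * X ^ g.natDegree := by
      simp only [p]
      rw [Finset.sum_range_succ, map_add, map_sum, Finset.sum_eq_zero]
      · simp [κ]
      · intro i hi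
        have : g.natDegree - i ≠ 0 := by
          have := Finset.mem_range.1 hi
          omega
        simp [κ, this]
    rw [← e2]
    apply h3
    rw [e1, Derivation.leibniz, Derivation.leibniz_pow, extDer_X, extDer_C, hg]
    simp

end top

end Crest.Agent.R268
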